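import Vale.Agent.P254.L.ZDefs

/-!
P254, frame block (b) (helper829): action of matrices on 3-tensors and the form `NN`.
-/

open Matrix

namespace Vale.Agent.P254.Fr

open L (Mat Ten NN N3 frT)
open scoped Kronecker

variable {n : ℕ}

/-- a 3-tensor as a vector -/
def vec3 (T : Ten n) : Fin n × Fin n × Fin n → ℝ := fun p => T p.1 p.2.1 p.2.2

/-- third Kronecker power -/
noncomputable def K3 (P : Mat n) : Matrix (Fin n × Fin n × Fin n) (Fin n × Fin n × Fin n) ℝ :=
  P ⊗ₖ (P ⊗ₖ P)

theorem NN_eq (P : Mat n) (T T' : Ten n) : NN P T T' = vec3 T ⬝ᵥ K3 P *ᵥ vec3 T' := by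
  unfold NN N3 dotProduct mulVec dotProduct K3 vec3
  simp only [Fintype.sum_prod_type, Matrix.kroneckerMap_apply, Finset.mul_sum]
  refine Finset.sum_congr rfl fun a _ => Finset.sum_congr rfl fun b _ =>
    Finset.sum_congr rfl fun c _ => Finset.sum_congr rfl fun a' _ =>
    Finset.sum_congr rfl fun b' _ => Finset.sum_congr rfl fun c' _ => ?_
  ring

theorem vec3_frT (L : Mat n) (T : Ten n) : vec3 (frT L T) = K3 L *ᵥ vec3 T := by
  funext p
  unfold frT mulVec dotProduct K3 vec3
  simp only [Fintype.sum_prod_type, Matrix.kroneckerMap_apply]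
  refine Finset.sum_congr rfl fun a _ => Finset.sum_congr rfl fun b _ =>
    Finset.sum_congr rfl fun c _ => ?_
  ring

theorem K3_mul (P Q : Mat n) : K3 P * K3 Q = K3 (P * Q) := by
  unfold K3
  rw [← Matrix.mul_kronecker_mul, ← Matrix.mul_kronecker_mul]

theorem K3_transpose (P : Mat n) : (K3 P)ᵀ = K3 Pᵀ := by
  unfold K3
  rw [Matrix.kroneckerMap_transpose, Matrix.kroneckerMap_transpose]

/-- change of frame in the form `NN` -/
theorem NN_frT (P L : Mat n) (T T' : Ten n) :
    NN P (frT L T) (frT L T') = NN (Lᵀ * P * L) T T' := by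
  rw [NN_eq, NN_eq, vec3_frT, vec3_frT, ← K3_mul, ← K3_mul, ← K3_transpose,
    Matrix.mulVec_mulVec, Matrix.mul_assoc, ← Matrix.mulVec_mulVec (vec3 T') (K3 L)ᵀ,
    dotProduct_mulVec (vec3 T), Matrix.vecMul_transpose]

theorem abs_le_trace {Q : Mat n} (hQ : Q.PosSemidef) (i j : Fin n) : |Q i j| ≤ Q.trace := by
  have hsym : Q j i = Q i j := by
    have := congrFun (congrFun hQ.1 i) j
    simpa [conjTranspose_apply] using this
  have hd : ∀ k, 0 ≤ Q k k := fun k => hQ.diag_nonneg
  have hdt : ∀ k, Q k k ≤ Q.trace := fun k =>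
    Finset.single_le_sum (f := fun k => Q k k) (fun k _ => hd k) (Finset.mem_univ k)
  have h2 : ∀ s : ℝ, 0 ≤ Q i i + 2 * s * Q i j + s ^ 2 * Q j j := by
    intro s
    have := hQ.dotProduct_mulVec_nonneg (Pi.single i 1 + Pi.single j s)
    simp only [star_trivial, mulVec_add, add_dotProduct, dotProduct_add, mulVec_single,
      single_dotProduct] at this
    simp only [MulOpposite.op_one, one_smul, col_apply, Pi.smul_apply, MulOpposite.smul_eq_mul_unop,
      MulOpposite.unop_op, one_mul] at this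
    rw [hsym] at this
    nlinarith
  have h3 := h2 1
  have h4 := h2 (-1)
  have h5 := hdt i
  have h6 := hdt j
  rw [abs_le]
  constructor <;> linarith

theorem NN_le {Q : Mat n} (hQ : Q.PosSemidef) {T : Ten n} {b : ℝ} (hb : 0 ≤ b)
    (hT : ∀ i j k, |T i j k| ≤ b) : NN Q T T ≤ (n : ℝ) ^ 6 * b ^ 2 * Q.trace ^ 3 := by
  have h0 : 0 ≤ Q.trace := hQ.trace_nonneg
  have h1 : (n : ℝ) ^ 6 * b ^ 2 * Q.trace ^ 3
      = ∑ _a : Fin n, ∑ _b : Fin n, ∑ _c : Fin n, ∑ _a' : Fin n, ∑ _b' : Fin n, ∑ _c' : Fin n,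
        (b ^ 2 * Q.trace ^ 3) := by
    simp only [Finset.sum_const, Finset.card_univ, Fintype.card_fin, nsmul_eq_mul]
    ring
  rw [h1]
  unfold NN N3
  refine Finset.sum_le_sum fun a _ => Finset.sum_le_sum fun b' _ =>
    Finset.sum_le_sum fun c _ => Finset.sum_le_sum fun a' _ =>
    Finset.sum_le_sum fun b'' _ => Finset.sum_le_sum fun c' _ => ?_
  refine (le_abs_self _).trans ?_
  rw [abs_mul, abs_mul, abs_mul, abs_mul]
  calc |Q a a'| * |Q b' b''| * |Q c c'| * |T a b' c| * |T a' b'' c'|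
      ≤ Q.trace * Q.trace * Q.trace * b * b := by
        have e1 := abs_le_trace hQ a a'
        have e2 := abs_le_trace hQ b' b''
        have e3 := abs_le_trace hQ c c'
        have e4 := hT a b' c
        have e5 := hT a' b'' c'
        gcongr
    _ = b ^ 2 * Q.trace ^ 3 := by ring

section trace

open scoped MatrixOrder

theorem trace_mul_nonneg {X Y : Mat n} (hX : X.PosSemidef) (hY : Y.PosSemidef) :
    0 ≤ (X * Y).trace := by
  obtain ⟨R, hR⟩ := CStarAlgebra.nonneg_iff_eq_star_mul_self.mp hY.nonneg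
  rw [Matrix.star_eq_conjTranspose] at hR
  rw [hR, ← Matrix.mul_assoc, Matrix.trace_mul_comm, ← Matrix.mul_assoc]
  exact (hX.mul_mul_conjTranspose_same R).trace_nonneg

end trace

end Vale.Agent.P254.Fr
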