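import Vale.Agent.P254.Frame829.Cum2

/-!
P254, frame block (b) (helper829): the cumulant arrays and their derivatives in the format of
`L/Tilt.lean`.
-/

open MeasureTheory Filter Topology Matrix

namespace Vale.Agent.P254.Fr

variable {n : ℕ}

/-- coordinate function -/
def co (i : Fin n) : E n → ℝ := fun x => x i

theorem pg_co (i : Fin n) : Pg (co i) := Pg.coord i

section arrays

variable (w : E n → ℝ) (B : Mt n) (c : E n)

/-- mean -/
noncomputable def muF : E n := fun i => Ev w B c (co i)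
/-- covariance matrix -/
noncomputable def AF : Mt n := Matrix.of fun i j => c2 w B c (co i) (co j)
/-- third cumulants -/
noncomputable def TF (i j k : Fin n) : ℝ := c3 w B c (co i) (co j) (co k)
/-- fourth cumulants -/
noncomputable def KF (i j k l : Fin n) : ℝ := c4 w B c (co i) (co j) (co k) (co l)
/-- fifth cumulants -/
noncomputable def RF (i j k l r : Fin n) : ℝ := c5 w B c (co i) (co j) (co k) (co l) (co r)

theorem AF_apply (i j : Fin n) : AF w B c i j = c2 w B c (co i) (co j) := rfl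
theorem AF_symm (i j : Fin n) : AF w B c i j = AF w B c j i := c2_comm w B c _ _
theorem TF_symm1 (i j k : Fin n) : TF w B c i j k = TF w B c j i k := c3_swap12 w B c _ _ _
theorem TF_symm2 (i j k : Fin n) : TF w B c i j k = TF w B c i k j := c3_swap23 w B c _ _ _
theorem KF_symm1 (i j k l : Fin n) : KF w B c i j k l = KF w B c j i k l :=
  c4_swap12 w B c _ _ _ _
theorem KF_symm2 (i j k l : Fin n) : KF w B c i j k l = KF w B c i k j l :=
  c4_swap23 w B c _ _ _ _
theorem KF_symm3 (i j k l : Fin n) : KF w B c i j k l = KF w B c i j l k :=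
  c4_swap34 w B c _ _ _ _

end arrays

theorem nonneg_of_psd {B : Mt n} (h : B.PosSemidef) (x : E n) : 0 ≤ x ⬝ᵥ B *ᵥ x := by
  simpa using h.dotProduct_mulVec_nonneg x

theorem pt_zero (e : E n) : pt (0 : Mt n) e = fun x => e ⬝ᵥ x := by
  funext x
  unfold pt
  rw [Matrix.zero_mulVec, dotProduct_zero, mul_zero, sub_zero]

/-- shift of the base point -/
theorem shift {u : E n → ℝ} {c e : E n} {v : ℝ} (t : ℝ)
    (h : HasDerivAt (fun s : ℝ => u (c + t • e + s • e)) v 0) :
    HasDerivAt (fun t : ℝ => u (c + t • e)) v t := by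
  have h0 : HasDerivAt (fun s : ℝ => u (c + t • e + s • e)) v (t - t) := by rwa [sub_self]
  have h1 := h0.comp_sub_const t t
  refine h1.congr_of_eventuallyEq (Eventually.of_forall fun x => ?_)
  show u (c + x • e) = u (c + t • e + (x - t) • e)
  congr 1
  rw [add_assoc, ← add_smul, add_sub_cancel]

variable {w : E n → ℝ} {m C : ℝ}

theorem dmu (hw : Wt w m C) (B : Mt n) (hB : B.PosSemidef) (c e : E n) (i : Fin n) (t : ℝ) :
    HasDerivAt (fun t : ℝ => muF w B (c + t • e) i) (∑ k, e k * AF w B (c + t • e) i k) t := by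
  refine shift (u := fun c => muF w B c i) t ?_
  have h := d1 hw (nonneg_of_psd hB) 0 (c + t • e) e (pg_co i)
  simp only [smul_zero, add_zero] at h
  rw [pt_zero, (lin_c2 hw (adm_of_posSemidef hw.m_pos hB) (c + t • e) (pg_co i)).dot e] at h
  exact h

theorem dA (hw : Wt w m C) (B : Mt n) (hB : B.PosSemidef) (c e : E n) (i j : Fin n) (t : ℝ) :
    HasDerivAt (fun t : ℝ => AF w B (c + t • e) i j) (∑ k, e k * TF w B (c + t • e) i j k) t := by
  refine shift (u := fun c => AF w B c i j) t ?_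
  have h := d2 hw (nonneg_of_psd hB) 0 (c + t • e) e (pg_co i) (pg_co j)
  simp only [smul_zero, add_zero] at h
  rw [pt_zero, (lin_c3 hw (adm_of_posSemidef hw.m_pos hB) (c + t • e) (pg_co i) (pg_co j)).dot e]
    at h
  exact h

theorem dT (hw : Wt w m C) (B : Mt n) (hB : B.PosSemidef) (c e : E n) (i j k : Fin n) (t : ℝ) :
    HasDerivAt (fun t : ℝ => TF w B (c + t • e) i j k)
      (∑ l, e l * KF w B (c + t • e) i j k l) t := by
  refine shift (u := fun c => TF w B c i j k) t ?_
  have h := d3 hw (nonneg_of_psd hB) 0 (c + t • e) e (pg_co i) (pg_co j) (pg_co k)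
  simp only [smul_zero, add_zero] at h
  rw [pt_zero, (lin_c4 hw (adm_of_posSemidef hw.m_pos hB) (c + t • e) (pg_co i) (pg_co j)
    (pg_co k)).dot e] at h
  exact h

theorem dK (hw : Wt w m C) (B : Mt n) (hB : B.PosSemidef) (c e : E n) (i j k l : Fin n) (t : ℝ) :
    HasDerivAt (fun t : ℝ => KF w B (c + t • e) i j k l)
      (∑ r, e r * RF w B (c + t • e) i j k l r) t := by
  refine shift (u := fun c => KF w B c i j k l) t ?_
  have h := d4 hw (nonneg_of_psd hB) 0 (c + t • e) e (pg_co i) (pg_co j) (pg_co k) (pg_co l)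
  simp only [smul_zero, add_zero] at h
  rw [pt_zero, (lin_c5 hw (adm_of_posSemidef hw.m_pos hB) (c + t • e) (pg_co i) (pg_co j)
    (pg_co k) (pg_co l)).dot e] at h
  exact h

theorem isSymm_of_psd {Q : Mt n} (hQ : Q.PosSemidef) : Q.IsSymm := by
  have h := hQ.isHermitian
  rw [Matrix.IsHermitian, Matrix.conjTranspose_eq_transpose_of_trivial] at h
  exact h

/-- the derivative of the mean in the localization direction -/
theorem c2_loc (hw : Wt w m C) {B : Mt n} (hB : Adm m B) (c : E n) {Q : Mt n} (hQ : Q.IsSymm)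
    {f : E n → ℝ} (hf : Pg f) :
    c2 w B c f (pt Q (Q *ᵥ muF w B c)) = -(1 / 2) * ∑ k, ∑ l, Q k l * c3 w B c f (co k) (co l) :=
  (lin_c2 hw hB c hf).loc hQ (muF w B c) (fun k l => c3 w B c f (co k) (co l))
    fun k l => c2_prod w B c f (co k) (co l)

theorem c3_loc (hw : Wt w m C) {B : Mt n} (hB : Adm m B) (c : E n) {Q : Mt n} (hQ : Q.IsSymm)
    {f g : E n → ℝ} (hf : Pg f) (hg : Pg g) :
    c3 w B c f g (pt Q (Q *ᵥ muF w B c)) = -(1 / 2) * ∑ k, ∑ l, Q k l *
      (c4 w B c f g (co k) (co l) + c2 w B c f (co k) * c2 w B c g (co l)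
        + c2 w B c f (co l) * c2 w B c g (co k)) :=
  (lin_c3 hw hB c hf hg).loc hQ (muF w B c) _ fun k l => c3_prod w B c f g (co k) (co l)

theorem c4_loc (hw : Wt w m C) {B : Mt n} (hB : Adm m B) (c : E n) {Q : Mt n} (hQ : Q.IsSymm)
    {f g h : E n → ℝ} (hf : Pg f) (hg : Pg g) (hh : Pg h) :
    c4 w B c f g h (pt Q (Q *ᵥ muF w B c)) = -(1 / 2) * ∑ k, ∑ l, Q k l *
      (c5 w B c f g h (co k) (co l)
        + (c2 w B c f (co k) * c3 w B c g h (co l) + c2 w B c f (co l) * c3 w B c g h (co k))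
        + (c2 w B c g (co k) * c3 w B c f h (co l) + c2 w B c g (co l) * c3 w B c f h (co k))
        + (c2 w B c h (co k) * c3 w B c f g (co l) + c2 w B c h (co l) * c3 w B c f g (co k))) :=
  (lin_c4 hw hB c hf hg hh).loc hQ (muF w B c) _ fun k l => c4_prod w B c f g h (co k) (co l)

theorem sum_swap {Q : Mt n} (hQ : Q.IsSymm) (F : Fin n → Fin n → ℝ) :
    ∑ k, ∑ l, Q k l * F l k = ∑ k, ∑ l, Q k l * F k l := by
  rw [Finset.sum_comm]
  refine Finset.sum_congr rfl fun k _ => Finset.sum_congr rfl fun l _ => ?_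
  rw [hQ.apply]

theorem fA (hw : Wt w m C) (B : Mt n) (hB : B.PosSemidef) (c : E n) (Q : Mt n)
    (hQ : Q.PosSemidef) (i j : Fin n) :
    HasDerivWithinAt (fun t : ℝ => AF w (B + t • Q) (c + t • (Q *ᵥ muF w B c)) i j)
      (-(AF w B c * Q * AF w B c) i j - 1 / 2 * ∑ k, ∑ l, Q k l * KF w B c i j k l)
      (Set.Ici 0) 0 := by
  have h := d2 hw (nonneg_of_psd hB) Q c (Q *ᵥ muF w B c) (pg_co i) (pg_co j)
  have hs := isSymm_of_psd hQ
  rw [c3_loc hw (adm_of_posSemidef hw.m_pos hB) c hs (pg_co i) (pg_co j)] at h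
  have e1 : (AF w B c * Q * AF w B c) i j = ∑ k, ∑ l, Q k l * (AF w B c i k * AF w B c j l) := by
    rw [Matrix.mul_apply, Finset.sum_comm]
    refine Finset.sum_congr rfl fun l _ => ?_
    rw [Matrix.mul_apply, Finset.sum_mul]
    refine Finset.sum_congr rfl fun k _ => ?_
    rw [AF_symm w B c l j]
    ring
  have e2 : ∑ k, ∑ l, Q k l * (AF w B c i l * AF w B c j k)
      = ∑ k, ∑ l, Q k l * (AF w B c i k * AF w B c j l) :=
    sum_swap hs fun k l => AF w B c i k * AF w B c j l
  have e3 : -(AF w B c * Q * AF w B c) i j - 1 / 2 * ∑ k, ∑ l, Q k l * KF w B c i j k l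
      = -(1 / 2) * ∑ k, ∑ l, Q k l *
        (c4 w B c (co i) (co j) (co k) (co l) + c2 w B c (co i) (co k) * c2 w B c (co j) (co l)
          + c2 w B c (co i) (co l) * c2 w B c (co j) (co k)) := by
    have e4 : ∑ k, ∑ l, Q k l *
        (c4 w B c (co i) (co j) (co k) (co l) + c2 w B c (co i) (co k) * c2 w B c (co j) (co l)
          + c2 w B c (co i) (co l) * c2 w B c (co j) (co k))
        = ∑ k, ∑ l, Q k l * KF w B c i j k l
          + ∑ k, ∑ l, Q k l * (AF w B c i k * AF w B c j l)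
          + ∑ k, ∑ l, Q k l * (AF w B c i l * AF w B c j k) := by
      simp only [← Finset.sum_add_distrib]
      refine Finset.sum_congr rfl fun k _ => Finset.sum_congr rfl fun l _ => ?_
      unfold KF
      simp only [AF_apply]
      ring
    rw [e4, e2, ← e1]
    ring
  rw [e3]
  exact h.hasDerivWithinAt

theorem fT (hw : Wt w m C) (B : Mt n) (hB : B.PosSemidef) (c : E n) (Q : Mt n)
    (hQ : Q.PosSemidef) (i j k : Fin n) :
    HasDerivWithinAt (fun t : ℝ => TF w (B + t • Q) (c + t • (Q *ᵥ muF w B c)) i j k)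
      (-(∑ l, ((AF w B c * Q) i l * TF w B c l j k + (AF w B c * Q) j l * TF w B c i l k
        + (AF w B c * Q) k l * TF w B c i j l))
        - 1 / 2 * ∑ l, ∑ r, Q l r * RF w B c i j k l r) (Set.Ici 0) 0 := by
  have h := d3 hw (nonneg_of_psd hB) Q c (Q *ᵥ muF w B c) (pg_co i) (pg_co j) (pg_co k)
  have hs := isSymm_of_psd hQ
  rw [c4_loc hw (adm_of_posSemidef hw.m_pos hB) c hs (pg_co i) (pg_co j) (pg_co k)] at h
  have key : ∀ (a : Fin n) (F : Fin n → ℝ),
      ∑ l, (AF w B c * Q) a l * F l = ∑ p, ∑ l, Q p l * (AF w B c a p * F l) := by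
    intro a F
    rw [Finset.sum_comm]
    refine Finset.sum_congr rfl fun l _ => ?_
    rw [Matrix.mul_apply, Finset.sum_mul]
    exact Finset.sum_congr rfl fun p _ => by ring
  have sw : ∀ (a : Fin n) (F : Fin n → ℝ),
      ∑ p, ∑ l, Q p l * (AF w B c a l * F p) = ∑ p, ∑ l, Q p l * (AF w B c a p * F l) :=
    fun a F => sum_swap hs fun p l => AF w B c a p * F l
  have e4 : ∑ p, ∑ l, Q p l *
      (c5 w B c (co i) (co j) (co k) (co p) (co l)
        + (c2 w B c (co i) (co p) * c3 w B c (co j) (co k) (co l)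
          + c2 w B c (co i) (co l) * c3 w B c (co j) (co k) (co p))
        + (c2 w B c (co j) (co p) * c3 w B c (co i) (co k) (co l)
          + c2 w B c (co j) (co l) * c3 w B c (co i) (co k) (co p))
        + (c2 w B c (co k) (co p) * c3 w B c (co i) (co j) (co l)
          + c2 w B c (co k) (co l) * c3 w B c (co i) (co j) (co p)))
      = ∑ l, ∑ r, Q l r * RF w B c i j k l r
        + (∑ p, ∑ l, Q p l * (AF w B c i p * TF w B c j k l)
          + ∑ p, ∑ l, Q p l * (AF w B c i l * TF w B c j k p))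
        + (∑ p, ∑ l, Q p l * (AF w B c j p * TF w B c i k l)
          + ∑ p, ∑ l, Q p l * (AF w B c j l * TF w B c i k p))
        + (∑ p, ∑ l, Q p l * (AF w B c k p * TF w B c i j l)
          + ∑ p, ∑ l, Q p l * (AF w B c k l * TF w B c i j p)) := by
    simp only [← Finset.sum_add_distrib]
    refine Finset.sum_congr rfl fun p _ => Finset.sum_congr rfl fun l _ => ?_
    unfold RF TF
    simp only [AF_apply]
    ring
  have e5 : ∑ l, ((AF w B c * Q) i l * TF w B c l j k + (AF w B c * Q) j l * TF w B c i l k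
        + (AF w B c * Q) k l * TF w B c i j l)
      = ∑ p, ∑ l, Q p l * (AF w B c i p * TF w B c j k l)
        + ∑ p, ∑ l, Q p l * (AF w B c j p * TF w B c i k l)
        + ∑ p, ∑ l, Q p l * (AF w B c k p * TF w B c i j l) := by
    rw [Finset.sum_add_distrib, Finset.sum_add_distrib, key i fun l => TF w B c l j k,
      key j fun l => TF w B c i l k, key k fun l => TF w B c i j l]
    have s1 : ∀ l, TF w B c l j k = TF w B c j k l := fun l => by
      rw [TF_symm1, TF_symm2]
    have s2 : ∀ l, TF w B c i l k = TF w B c i k l := fun l => TF_symm2 w B c i l k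
    simp only [s1, s2]
  have e3 : -(∑ l, ((AF w B c * Q) i l * TF w B c l j k + (AF w B c * Q) j l * TF w B c i l k
        + (AF w B c * Q) k l * TF w B c i j l))
        - 1 / 2 * ∑ l, ∑ r, Q l r * RF w B c i j k l r
      = -(1 / 2) * ∑ p, ∑ l, Q p l *
      (c5 w B c (co i) (co j) (co k) (co p) (co l)
        + (c2 w B c (co i) (co p) * c3 w B c (co j) (co k) (co l)
          + c2 w B c (co i) (co l) * c3 w B c (co j) (co k) (co p))
        + (c2 w B c (co j) (co p) * c3 w B c (co i) (co k) (co l)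
          + c2 w B c (co j) (co l) * c3 w B c (co i) (co k) (co p))
        + (c2 w B c (co k) (co p) * c3 w B c (co i) (co j) (co l)
          + c2 w B c (co k) (co l) * c3 w B c (co i) (co j) (co p))) := by
    rw [e4, e5, sw i fun l => TF w B c j k l, sw j fun l => TF w B c i k l,
      sw k fun l => TF w B c i j l]
    ring
  rw [e3]
  exact h.hasDerivWithinAt

/-! ### continuity -/

theorem cEv (hw : Wt w m C) {f : E n → ℝ} (hf : Pg f) :
    ContinuousOn (fun z : Mt n × E n => Ev w z.1 z.2 f) {z | Adm m z.1} := by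
  refine (continuousOn_I hw hf).div (continuousOn_I hw (Pg.const 1)) fun z hz => ?_
  exact (I_one_pos hw hz z.2).ne'

theorem cc2 (hw : Wt w m C) {f g : E n → ℝ} (hf : Pg f) (hg : Pg g) :
    ContinuousOn (fun z : Mt n × E n => c2 w z.1 z.2 f g) {z | Adm m z.1} :=
  (cEv hw (hf.mul hg)).sub ((cEv hw hf).mul (cEv hw hg))

theorem cc3 (hw : Wt w m C) {f g h : E n → ℝ} (hf : Pg f) (hg : Pg g) (hh : Pg h) :
    ContinuousOn (fun z : Mt n × E n => c3 w z.1 z.2 f g h) {z | Adm m z.1} :=
  ((cc2 hw (hf.mul hg) hh).sub ((cc2 hw hf hh).mul (cEv hw hg))).sub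
    ((cEv hw hf).mul (cc2 hw hg hh))

theorem psd_subset (hm : 0 < m) : ({B : Mt n | B.PosSemidef} ×ˢ (Set.univ : Set (E n)))
    ⊆ {z | Adm m z.1} := fun _ hz => adm_of_posSemidef hm hz.1

theorem cA (hw : Wt w m C) (i j : Fin n) :
    ContinuousOn (fun p : Mt n × E n => AF w p.1 p.2 i j) ({B | B.PosSemidef} ×ˢ Set.univ) :=
  (cc2 hw (pg_co i) (pg_co j)).mono (psd_subset hw.m_pos)

theorem cT (hw : Wt w m C) (i j k : Fin n) :
    ContinuousOn (fun p : Mt n × E n => TF w p.1 p.2 i j k) ({B | B.PosSemidef} ×ˢ Set.univ) :=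
  (cc3 hw (pg_co i) (pg_co j) (pg_co k)).mono (psd_subset hw.m_pos)

end Vale.Agent.P254.Fr
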