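import Vale.Agent.P254.Frame829.Nice2
import Vale.Agent.P150.F.PL

/-!
P254, frame block (b) (helper829): the Brascamp-Lieb upper bound of the covariance matrix, from the
Prekopa-Leindler inequality.
-/

open MeasureTheory Filter Topology Matrix
open scoped ENNReal

namespace Vale.Agent.P254.Fr

variable {n : ℕ}

/-- midpoint Prekopa-Leindler for integrable functions -/
theorem pl_half {u v w : E n → ℝ} (hu : Measurable u) (hv : Measurable v) (hw : Measurable w)
    (hu0 : ∀ x, 0 ≤ u x) (hv0 : ∀ x, 0 ≤ v x) (hw0 : ∀ x, 0 ≤ w x)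
    (iu : Integrable u) (iv : Integrable v) (iw : Integrable w)
    (h : ∀ x y, u x * v y ≤ w ((1 / 2 : ℝ) • x + (1 / 2 : ℝ) • y) ^ 2) :
    (∫ x, u x) * (∫ x, v x) ≤ (∫ x, w x) ^ 2 := by
  have hh : (1 : ℝ) - 1 / 2 = 1 / 2 := by norm_num
  have key := P150.F.PL.prekopa_leindler (n := n) (s := 1 / 2) (by norm_num) (by norm_num)
    (u := fun x => ENNReal.ofReal (u x)) (v := fun x => ENNReal.ofReal (v x))
    (w := fun x => ENNReal.ofReal (w x)) hu.ennreal_ofReal hv.ennreal_ofReal hw.ennreal_ofReal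
    (fun x y => by
      rw [hh, ENNReal.ofReal_rpow_of_nonneg (hu0 x) (by norm_num),
        ENNReal.ofReal_rpow_of_nonneg (hv0 y) (by norm_num),
        ← ENNReal.ofReal_mul (Real.rpow_nonneg (hu0 x) _)]
      refine ENNReal.ofReal_le_ofReal ?_
      rw [← Real.mul_rpow (hu0 x) (hv0 y), ← Real.sqrt_eq_rpow]
      exact Real.sqrt_le_iff.2 ⟨hw0 _, h x y⟩)
  rw [hh, ← ofReal_integral_eq_lintegral_ofReal iu (Eventually.of_forall hu0),
    ← ofReal_integral_eq_lintegral_ofReal iv (Eventually.of_forall hv0),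
    ← ofReal_integral_eq_lintegral_ofReal iw (Eventually.of_forall hw0)] at key
  have hU : 0 ≤ ∫ x, u x := integral_nonneg hu0
  have hV : 0 ≤ ∫ x, v x := integral_nonneg hv0
  have hW : 0 ≤ ∫ x, w x := integral_nonneg hw0
  rw [ENNReal.ofReal_rpow_of_nonneg hU (by norm_num),
    ENNReal.ofReal_rpow_of_nonneg hV (by norm_num),
    ← ENNReal.ofReal_mul (Real.rpow_nonneg hU _), ENNReal.ofReal_le_ofReal_iff hW,
    ← Real.mul_rpow hU hV, ← Real.sqrt_eq_rpow] at key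
  exact (Real.sqrt_le_iff.1 key).2

theorem quad_mid {H : Mt n} (hH : H.PosSemidef) (a b : E n) :
    2 * (((1 / 2 : ℝ) • a + (1 / 2 : ℝ) • b) ⬝ᵥ H *ᵥ ((1 / 2 : ℝ) • a + (1 / 2 : ℝ) • b))
      ≤ a ⬝ᵥ H *ᵥ a + b ⬝ᵥ H *ᵥ b := by
  have hs := isSymm_of_psd hH
  have h1 := nonneg_of_psd hH (a + (-1 : ℝ) • b)
  rw [quad_line hs] at h1
  rw [quad_line hs, Matrix.mulVec_smul, dotProduct_smul, smul_dotProduct, dotProduct_smul,
    smul_eq_mul, smul_eq_mul, smul_eq_mul]
  linarith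

theorem dot_mid (a b : E n) :
    2 * (((1 / 2 : ℝ) • a + (1 / 2 : ℝ) • b) ⬝ᵥ ((1 / 2 : ℝ) • a + (1 / 2 : ℝ) • b))
      ≤ a ⬝ᵥ a + b ⬝ᵥ b := by
  have h := quad_mid (Matrix.PosSemidef.one (n := Fin n) (R := ℝ)) a b
  simpa only [Matrix.one_mulVec] using h

section logconc

variable {K : Set (E n)} {ε m : ℝ}

/-- `gau` is midpoint log-concave -/
theorem gau_mid (hK : IsCompact K) (hc : Convex ℝ K) (hε : 0 < ε) (x x' : E n) :
    gau K ε x * gau K ε x' ≤ gau K ε ((1 / 2 : ℝ) • x + (1 / 2 : ℝ) • x') ^ 2 := by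
  have hKm := hK.measurableSet
  set k : E n → E n → ℝ := fun x y => Real.exp (-(1 / (2 * ε)) * ((x - y) ⬝ᵥ (x - y))) with hk
  have e1 : ∀ x, gau K ε x = ∫ y, K.indicator (k x) y := fun x => by
    rw [integral_indicator hKm]
    rfl
  have m1 : ∀ x, Measurable (K.indicator (k x)) := fun x => by
    refine Measurable.indicator ?_ hKm
    have hcont : Continuous (k x) := by
      simp only [hk]
      unfold dotProduct
      fun_prop
    exact hcont.measurable
  have p1 : ∀ x y, 0 ≤ K.indicator (k x) y := fun x y =>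
    Set.indicator_nonneg (fun _ _ => (Real.exp_pos _).le) y
  have i1 : ∀ x, Integrable (K.indicator (k x)) := fun x =>
    (integrable_indicator_iff hKm).2 (int_kernel hK x)
  rw [e1, e1, e1]
  refine pl_half (m1 _) (m1 _) (m1 _) (p1 _) (p1 _) (p1 _) (i1 _) (i1 _) (i1 _) fun y y' => ?_
  by_cases hy : y ∈ K
  · by_cases hy' : y' ∈ K
    · have hm : (1 / 2 : ℝ) • y + (1 / 2 : ℝ) • y' ∈ K :=
        hc hy hy' (by norm_num) (by norm_num) (by norm_num)
      rw [Set.indicator_of_mem hy, Set.indicator_of_mem hy', Set.indicator_of_mem hm]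
      simp only [hk]
      rw [← Real.exp_add, ← Real.exp_nat_mul]
      refine Real.exp_le_exp.2 ?_
      have h1 := dot_mid (x - y) (x' - y')
      have h2 : (1 / 2 : ℝ) • (x - y) + (1 / 2 : ℝ) • (x' - y')
          = (1 / 2 : ℝ) • x + (1 / 2 : ℝ) • x' - ((1 / 2 : ℝ) • y + (1 / 2 : ℝ) • y') := by
        rw [smul_sub, smul_sub]
        abel
      rw [h2] at h1
      have h3 : 0 < 1 / (2 * ε) := by positivity
      have h4 := mul_le_mul_of_nonneg_left h1 h3.le
      push_cast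
      linarith
    · rw [Set.indicator_of_notMem hy', mul_zero]
      positivity
  · rw [Set.indicator_of_notMem hy, zero_mul]
    positivity

/-- log-concavity of the normalised partition function -/
theorem part_mid (hK : IsCompact K) (hc : Convex ℝ K) (hi : (interior K).Nonempty) (hε : 0 < ε)
    (hm : 0 < m) {B : Mt n} (hB : B.PosSemidef) (c c' : E n) :
    (I (wK K ε m) B c (fun _ => 1) * Real.exp (-(1 / 2) * (c ⬝ᵥ GF B m *ᵥ c)))
      * (I (wK K ε m) B c' (fun _ => 1) * Real.exp (-(1 / 2) * (c' ⬝ᵥ GF B m *ᵥ c')))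
    ≤ (I (wK K ε m) B ((1 / 2 : ℝ) • c + (1 / 2 : ℝ) • c') (fun _ => 1)
      * Real.exp (-(1 / 2) * (((1 / 2 : ℝ) • c + (1 / 2 : ℝ) • c') ⬝ᵥ GF B m *ᵥ
        ((1 / 2 : ℝ) • c + (1 / 2 : ℝ) • c')))) ^ 2 := by
  obtain ⟨C, hw⟩ := wt_wK hK hi hε hm
  have hadm := adm_of_posSemidef hm hB
  set k : E n → E n → ℝ := fun c x =>
    1 * (tl B c x * wK K ε m x) * Real.exp (-(1 / 2) * (c ⬝ᵥ GF B m *ᵥ c)) with hk
  have e1 : ∀ c, I (wK K ε m) B c (fun _ => 1) * Real.exp (-(1 / 2) * (c ⬝ᵥ GF B m *ᵥ c))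
      = ∫ x, k c x := fun c => by
    rw [integral_mul_const]
    rfl
  have m1 : ∀ c, Measurable (k c) := fun c =>
    (measurable_const.mul ((measurable_tl B c).mul hw.meas)).mul_const _
  have p1 : ∀ c x, 0 ≤ k c x := fun c x => by
    have := mul_pos (tl_pos B c x) (hw.pos x)
    simp only [hk]
    positivity
  have i1 : ∀ c, Integrable (k c) := fun c =>
    (integrable_I hw hadm c (Pg.const 1)).mul_const _
  rw [e1, e1, e1]
  refine pl_half (m1 _) (m1 _) (m1 _) (p1 _) (p1 _) (p1 _) (i1 _) (i1 _) (i1 _) fun x y => ?_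
  have hH := HF_posDef hm hB
  have hHs := symm_of_posDef hH
  have key : ∀ c x, k c x = gau K ε x
      * Real.exp (-(1 / 2) * ((x + (-1 : ℝ) • (GF B m *ᵥ c)) ⬝ᵥ HF B m *ᵥ
        (x + (-1 : ℝ) • (GF B m *ᵥ c)))) := by
    intro c x
    simp only [hk]
    have h1 : tl B c x * wK K ε m x = gau K ε x * (tl B c x * gw m x) := by
      unfold wK gw
      ring
    rw [h1, tl_gw, one_mul, mul_assoc, ← Real.exp_add]
    congr 2
    rw [quad_line hHs]
    have h2 : HF B m *ᵥ (GF B m *ᵥ c) = c := by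
      rw [Matrix.mulVec_mulVec, HF_mul_GF hm hB, Matrix.one_mulVec]
    rw [quad_symm hHs (GF B m *ᵥ c) x, h2, dotProduct_comm x c, dotProduct_comm (GF B m *ᵥ c) c]
    ring
  rw [key, key, key]
  have h1 := gau_mid hK hc hε x y
  have g1 := (gau_pos hK hi hε x).le
  have g2 := (gau_pos hK hi hε y).le
  have h2 := quad_mid hH.posSemidef (x + (-1 : ℝ) • (GF B m *ᵥ c)) (y + (-1 : ℝ) • (GF B m *ᵥ c'))
  have h3 : (1 / 2 : ℝ) • (x + (-1 : ℝ) • (GF B m *ᵥ c))
      + (1 / 2 : ℝ) • (y + (-1 : ℝ) • (GF B m *ᵥ c'))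
      = (1 / 2 : ℝ) • x + (1 / 2 : ℝ) • y
        + (-1 : ℝ) • (GF B m *ᵥ ((1 / 2 : ℝ) • c + (1 / 2 : ℝ) • c')) := by
    rw [Matrix.mulVec_add, Matrix.mulVec_smul, Matrix.mulVec_smul]
    module
  rw [h3] at h2
  rw [mul_mul_mul_comm, ← Real.exp_add, mul_pow, ← Real.exp_nat_mul]
  refine mul_le_mul h1 (Real.exp_le_exp.2 ?_) (Real.exp_pos _).le (by positivity)
  push_cast
  linarith

/-- second derivative test -/
theorem second_le {f f' : ℝ → ℝ} {d : ℝ} (h1 : ∀ t, HasDerivAt f (f' t) t)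
    (h2 : HasDerivAt f' d 0) (h : ∀ t, f t + f (-t) ≤ 2 * f 0) : d ≤ 0 := by
  by_contra hd
  push Not at hd
  have h3 := (taylor2 h1 h2).def (half_pos (half_pos hd))
  obtain ⟨δ, hδ, h4⟩ := Metric.eventually_nhds_iff.1 h3
  have h5 := h4 (y := δ / 2) (by
    rw [dist_zero_right, Real.norm_eq_abs, abs_of_pos (by positivity)]; linarith)
  have h6 := h4 (y := -(δ / 2)) (by
    rw [dist_zero_right, Real.norm_eq_abs, abs_neg, abs_of_pos (by positivity)]; linarith)
  have h7 := h (δ / 2)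
  rw [Real.norm_eq_abs, Real.norm_eq_abs, abs_of_nonneg (sq_nonneg (δ / 2))] at h5
  rw [Real.norm_eq_abs, Real.norm_eq_abs, abs_of_nonneg (sq_nonneg (-(δ / 2)))] at h6
  have h8 := (abs_le.1 h5).1
  have h9 := (abs_le.1 h6).1
  have h10 : 0 < d * (δ / 2) ^ 2 := by positivity
  nlinarith

/-- Brascamp-Lieb -/
theorem A_le (hK : IsCompact K) (hc : Convex ℝ K) (hi : (interior K).Nonempty) (hε : 0 < ε)
    (hm : 0 < m) {B : Mt n} (hB : B.PosSemidef) (c : E n) :
    (GF B m - AF (wK K ε m) B c).PosSemidef := by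
  obtain ⟨C, hw⟩ := wt_wK hK hi hε hm
  have hadm := adm_of_posSemidef hm hB
  have hG := GF_posDef hm hB
  have hGs := symm_of_posDef hG
  refine Matrix.PosSemidef.of_dotProduct_mulVec_nonneg
    (hG.isHermitian.sub (posA hK hi hε hm B hB c).isHermitian) fun e => ?_
  rw [star_trivial, Matrix.sub_mulVec, dotProduct_sub]
  set w := wK K ε m with hwdef
  -- the function
  set f : ℝ → ℝ := fun t => Real.log (I w B (c + t • e) (fun _ => 1))
    - (1 / 2) * ((c + t • e) ⬝ᵥ GF B m *ᵥ (c + t • e)) with hf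
  set f' : ℝ → ℝ := fun t => Ev w B (c + t • e) (fun x => e ⬝ᵥ x)
    - ((e ⬝ᵥ GF B m *ᵥ c) + t * (e ⬝ᵥ GF B m *ᵥ e)) with hf'
  have hd := Pg.dot e
  have h1 : ∀ t, HasDerivAt f (f' t) t := by
    intro t
    have a1 : HasDerivAt (fun t : ℝ => Real.log (I w B (c + t • e) (fun _ => 1)))
        (Ev w B (c + t • e) (fun x => e ⬝ᵥ x)) t := by
      refine shift (u := fun c => Real.log (I w B c (fun _ => 1))) t ?_
      have b1 := hasDerivAt_I hw (nonneg_of_psd hB) 0 (c + t • e) e (Pg.const (n := n) 1)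
      have hpos := I_one_pos hw hadm (c + t • e)
      have hne : I w (B + (0 : ℝ) • 0) (c + t • e + (0 : ℝ) • e) (fun _ => 1) ≠ 0 := by
        rw [zero_smul, zero_smul, add_zero, add_zero]
        exact hpos.ne'
      have b2 := b1.log hne
      simp only [smul_zero, zero_smul, add_zero, one_mul] at b2
      rw [pt_zero] at b2
      exact b2
    have a2 : HasDerivAt (fun t : ℝ => (1 / 2) * ((c + t • e) ⬝ᵥ GF B m *ᵥ (c + t • e)))
        ((e ⬝ᵥ GF B m *ᵥ c) + t * (e ⬝ᵥ GF B m *ᵥ e)) t := by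
      simp only [quad_line hGs]
      have b1 : HasDerivAt (fun t : ℝ => 2 * t * (e ⬝ᵥ GF B m *ᵥ c)) (2 * (e ⬝ᵥ GF B m *ᵥ c)) t := by
        simpa using ((hasDerivAt_id t).const_mul 2).mul_const (e ⬝ᵥ GF B m *ᵥ c)
      have b2 : HasDerivAt (fun t : ℝ => t ^ 2 * (e ⬝ᵥ GF B m *ᵥ e))
          (2 * t * (e ⬝ᵥ GF B m *ᵥ e)) t := by
        simpa using ((hasDerivAt_id t).pow 2).mul_const (e ⬝ᵥ GF B m *ᵥ e)
      have b3 := (((b1.const_add (c ⬝ᵥ GF B m *ᵥ c)).add b2).const_mul (1 / 2))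
      refine b3.congr_deriv ?_
      ring
    exact a1.sub a2
  have h2 : HasDerivAt f' (e ⬝ᵥ AF w B c *ᵥ e - e ⬝ᵥ GF B m *ᵥ e) 0 := by
    have a1 := d1 hw (nonneg_of_psd hB) 0 c e hd
    simp only [smul_zero, add_zero] at a1
    rw [pt_zero] at a1
    have a2 : c2 w B c (fun x => e ⬝ᵥ x) (fun x => e ⬝ᵥ x) = e ⬝ᵥ AF w B c *ᵥ e := by
      rw [(lin_c2 hw hadm c hd).dot e]
      unfold dotProduct mulVec
      refine Finset.sum_congr rfl fun i _ => ?_
      congr 1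
      rw [c2_comm]
      have a3 := (lin_c2 hw hadm c (pg_co i)).dot e
      unfold dotProduct at a3 ⊢
      rw [show (fun x : E n => x i) = co i from rfl, a3]
      refine Finset.sum_congr rfl fun j _ => ?_
      show e j * c2 w B c (co i) (co j) = AF w B c i j * e j
      rw [AF_apply]
      exact mul_comm _ _
    rw [a2] at a1
    have a4 : HasDerivAt (fun t : ℝ => (e ⬝ᵥ GF B m *ᵥ c) + t * (e ⬝ᵥ GF B m *ᵥ e))
        (e ⬝ᵥ GF B m *ᵥ e) 0 := by
      simpa using ((hasDerivAt_id (0 : ℝ)).mul_const (e ⬝ᵥ GF B m *ᵥ e)).const_add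
        (e ⬝ᵥ GF B m *ᵥ c)
    exact a1.sub a4
  have h3 : ∀ t, f t + f (-t) ≤ 2 * f 0 := by
    intro t
    have a1 := part_mid hK hc hi hε hm hB (c + t • e) (c + (-t) • e)
    have a2 : (1 / 2 : ℝ) • (c + t • e) + (1 / 2 : ℝ) • (c + (-t) • e) = c + (0 : ℝ) • e := by
      module
    rw [a2, ← hwdef] at a1
    have p := fun t : ℝ => I_one_pos hw hadm (c + t • e)
    have ex := fun r : ℝ => Real.exp_pos r
    have a3 := Real.log_le_log (mul_pos (mul_pos (p t) (ex _)) (mul_pos (p (-t)) (ex _))) a1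
    rw [Real.log_mul (mul_pos (p t) (ex _)).ne' (mul_pos (p (-t)) (ex _)).ne',
      Real.log_mul (p t).ne' (ex _).ne', Real.log_mul (p (-t)).ne' (ex _).ne', Real.log_pow,
      Real.log_mul (p 0).ne' (ex _).ne', Real.log_exp, Real.log_exp, Real.log_exp] at a3
    simp only [hf]
    push_cast at a3
    linarith
  have h4 := second_le h1 h2 h3
  linarith

theorem up (hK : IsCompact K) (hc : Convex ℝ K) (hi : (interior K).Nonempty) (hε : 0 < ε)
    (hm : 0 < m) (B : Mt n) (hB : B.PosSemidef) (c : E n) :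
    ((AF (wK K ε m) B c)⁻¹ - (B + m • (1 : Mt n))).PosSemidef := by
  have h := inv_anti (GF_posDef hm hB) (posA hK hi hε hm B hB c) (A_le hK hc hi hε hm hB c)
  have e : (GF B m)⁻¹ = B + m • (1 : Mt n) :=
    Matrix.nonsing_inv_nonsing_inv _ ((Matrix.isUnit_iff_isUnit_det _).1 (HF_posDef hm hB).isUnit)
  rwa [e] at h

end logconc

end Vale.Agent.P254.Fr
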