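import Vale.Agent.P254.Frame829.Mom

/-!
P254, frame block (b) (helper829): joint cumulants of functions under the tilted laws and their
derivatives.
-/

open MeasureTheory Filter Topology Matrix

namespace Vale.Agent.P254.Fr

variable {n : ℕ}

/-- tilted expectations -/
noncomputable def Ev (w : E n → ℝ) (B : Mt n) (c : E n) (φ : E n → ℝ) : ℝ :=
  I w B c φ / I w B c (fun _ => 1)

section defs

variable (w : E n → ℝ) (B : Mt n) (c : E n)

/-- covariance -/
noncomputable def c2 (f g : E n → ℝ) : ℝ := Ev w B c (fun x => f x * g x) - Ev w B c f * Ev w B c g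

/-- third joint cumulant -/
noncomputable def c3 (f g h : E n → ℝ) : ℝ :=
  c2 w B c (fun x => f x * g x) h - c2 w B c f h * Ev w B c g - Ev w B c f * c2 w B c g h

/-- fourth joint cumulant -/
noncomputable def c4 (f g h k : E n → ℝ) : ℝ :=
  c3 w B c (fun x => f x * g x) h k
    - (c3 w B c f h k * Ev w B c g + c2 w B c f h * c2 w B c g k)
    - (c2 w B c f k * c2 w B c g h + Ev w B c f * c3 w B c g h k)

/-- fifth joint cumulant -/
noncomputable def c5 (f g h k l : E n → ℝ) : ℝ :=
  c4 w B c (fun x => f x * g x) h k l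
    - ((c4 w B c f h k l * Ev w B c g + c3 w B c f h k * c2 w B c g l)
      + (c3 w B c f h l * c2 w B c g k + c2 w B c f h * c3 w B c g k l))
    - ((c3 w B c f k l * c2 w B c g h + c2 w B c f k * c3 w B c g h l)
      + (c2 w B c f l * c3 w B c g h k + Ev w B c f * c4 w B c g h k l))

end defs

section basic

variable {w : E n → ℝ} {m C : ℝ} {B : Mt n} {c : E n}

theorem I_one_pos (hw : Wt w m C) (hB : Adm m B) (c : E n) : 0 < I w B c (fun _ => 1) := by
  unfold I
  have hint := integrable_I hw hB c (Pg.const (n := n) 1)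
  rw [integral_pos_iff_support_of_nonneg (fun x => ?_) hint]
  · have : Function.support (fun x : E n => (1 : ℝ) * (tl B c x * w x)) = Set.univ := by
      ext x
      simp only [Function.mem_support, Set.mem_univ, iff_true, one_mul]
      exact (mul_pos (tl_pos B c x) (hw.pos x)).ne'
    rw [this]
    exact NeZero.pos _
  · simp only [Pi.zero_apply, one_mul]
    exact (mul_pos (tl_pos B c x) (hw.pos x)).le

theorem I_add (hw : Wt w m C) (hB : Adm m B) (c : E n) {f g : E n → ℝ} (hf : Pg f) (hg : Pg g) :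
    I w B c (fun x => f x + g x) = I w B c f + I w B c g := by
  unfold I
  rw [← integral_add (integrable_I hw hB c hf) (integrable_I hw hB c hg)]
  exact integral_congr_ae (Eventually.of_forall fun x => by ring)

theorem I_const_mul (w : E n → ℝ) (B : Mt n) (c : E n) (r : ℝ) (f : E n → ℝ) :
    I w B c (fun x => r * f x) = r * I w B c f := by
  unfold I
  rw [← integral_const_mul]
  exact integral_congr_ae (Eventually.of_forall fun x => by ring)

theorem Ev_add (hw : Wt w m C) (hB : Adm m B) (c : E n) {f g : E n → ℝ} (hf : Pg f) (hg : Pg g) :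
    Ev w B c (fun x => f x + g x) = Ev w B c f + Ev w B c g := by
  unfold Ev
  rw [I_add hw hB c hf hg, add_div]

theorem Ev_const_mul (w : E n → ℝ) (B : Mt n) (c : E n) (r : ℝ) (f : E n → ℝ) :
    Ev w B c (fun x => r * f x) = r * Ev w B c f := by
  unfold Ev
  rw [I_const_mul, mul_div_assoc]

theorem Ev_sub (hw : Wt w m C) (hB : Adm m B) (c : E n) {f g : E n → ℝ} (hf : Pg f) (hg : Pg g) :
    Ev w B c (fun x => f x - g x) = Ev w B c f - Ev w B c g := by
  have h := Ev_add hw hB c hf (hg.const_mul (-1))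
  rw [Ev_const_mul] at h
  have e : (fun x => f x - g x) = fun x => f x + -1 * g x := by funext x; ring
  rw [e, h]
  ring

theorem Ev_one (hw : Wt w m C) (hB : Adm m B) (c : E n) : Ev w B c (fun _ => 1) = 1 :=
  div_self (I_one_pos hw hB c).ne'

theorem Ev_const (hw : Wt w m C) (hB : Adm m B) (c : E n) (r : ℝ) : Ev w B c (fun _ => r) = r := by
  have h := Ev_const_mul w B c r (fun _ => 1)
  simp only [mul_one] at h
  rw [h, Ev_one hw hB c, mul_one]

theorem Ev_sum (hw : Wt w m C) (hB : Adm m B) (c : E n) {ι : Type*} (s : Finset ι)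
    (f : ι → E n → ℝ) (hf : ∀ a ∈ s, Pg (f a)) :
    Ev w B c (fun x => ∑ a ∈ s, f a x) = ∑ a ∈ s, Ev w B c (f a) := by
  classical
  induction s using Finset.induction_on with
  | empty =>
    simp only [Finset.sum_empty]
    exact Ev_const hw hB c 0
  | insert a s ha ih =>
    simp only [Finset.sum_insert ha]
    rw [Ev_add hw hB c (hf a (Finset.mem_insert_self _ _))
      (Pg.sum s fun b hb => hf b (Finset.mem_insert_of_mem hb)),
      ih fun b hb => hf b (Finset.mem_insert_of_mem hb)]

end basic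

section deriv

variable {w : E n → ℝ} {m C : ℝ} {B : Mt n}

/-- derivative of the tilted expectations at `(B, c)` in the direction `(Q, e)` -/
theorem d1 (hw : Wt w m C) (hB : ∀ x : E n, 0 ≤ x ⬝ᵥ B *ᵥ x) (Q : Mt n) (c e : E n)
    {f : E n → ℝ} (hf : Pg f) :
    HasDerivAt (fun t : ℝ => Ev w (B + t • Q) (c + t • e) f) (c2 w B c f (pt Q e)) 0 := by
  have h1 := hasDerivAt_I hw hB Q c e hf
  have h2 := hasDerivAt_I hw hB Q c e (Pg.const (n := n) 1)
  have hadm := adm_of_nonneg hw.m_pos hB
  have hpos := I_one_pos hw hadm c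
  have hne : I w (B + (0 : ℝ) • Q) (c + (0 : ℝ) • e) (fun _ => 1) ≠ 0 := by
    rw [zero_smul, zero_smul, add_zero, add_zero]
    exact hpos.ne'
  have h3 := h1.div h2 hne
  simp only [zero_smul, add_zero, one_mul] at h3
  have e1 : (I w B c (fun x => f x * pt Q e x) * I w B c (fun _ => 1)
      - I w B c f * I w B c (fun x => pt Q e x)) / I w B c (fun _ => 1) ^ 2
      = c2 w B c f (pt Q e) := by
    unfold c2 Ev
    field_simp
  rw [← e1]
  exact h3

theorem d2 (hw : Wt w m C) (hB : ∀ x : E n, 0 ≤ x ⬝ᵥ B *ᵥ x) (Q : Mt n) (c e : E n)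
    {f g : E n → ℝ} (hf : Pg f) (hg : Pg g) :
    HasDerivAt (fun t : ℝ => c2 w (B + t • Q) (c + t • e) f g) (c3 w B c f g (pt Q e)) 0 := by
  have h := (d1 hw hB Q c e (hf.mul hg)).sub ((d1 hw hB Q c e hf).mul (d1 hw hB Q c e hg))
  simp only [zero_smul, add_zero] at h
  have e1 : c3 w B c f g (pt Q e) = c2 w B c (fun x => f x * g x) (pt Q e)
      - (c2 w B c f (pt Q e) * Ev w B c g + Ev w B c f * c2 w B c g (pt Q e)) := by
    unfold c3; ring
  rw [e1]
  exact h

theorem d3 (hw : Wt w m C) (hB : ∀ x : E n, 0 ≤ x ⬝ᵥ B *ᵥ x) (Q : Mt n) (c e : E n)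
    {f g h : E n → ℝ} (hf : Pg f) (hg : Pg g) (hh : Pg h) :
    HasDerivAt (fun t : ℝ => c3 w (B + t • Q) (c + t • e) f g h) (c4 w B c f g h (pt Q e)) 0 := by
  have h := ((d2 hw hB Q c e (hf.mul hg) hh).sub
    ((d2 hw hB Q c e hf hh).mul (d1 hw hB Q c e hg))).sub
    ((d1 hw hB Q c e hf).mul (d2 hw hB Q c e hg hh))
  simp only [zero_smul, add_zero] at h
  exact h

theorem d4 (hw : Wt w m C) (hB : ∀ x : E n, 0 ≤ x ⬝ᵥ B *ᵥ x) (Q : Mt n) (c e : E n)
    {f g h k : E n → ℝ} (hf : Pg f) (hg : Pg g) (hh : Pg h) (hk : Pg k) :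
    HasDerivAt (fun t : ℝ => c4 w (B + t • Q) (c + t • e) f g h k)
      (c5 w B c f g h k (pt Q e)) 0 := by
  have h := ((d3 hw hB Q c e (hf.mul hg) hh hk).sub
    (((d3 hw hB Q c e hf hh hk).mul (d1 hw hB Q c e hg)).add
      ((d2 hw hB Q c e hf hh).mul (d2 hw hB Q c e hg hk)))).sub
    (((d2 hw hB Q c e hf hk).mul (d2 hw hB Q c e hg hh)).add
      ((d1 hw hB Q c e hf).mul (d3 hw hB Q c e hg hh hk)))
  simp only [zero_smul, add_zero] at h
  exact h

end deriv

section symm

variable (w : E n → ℝ) (B : Mt n) (c : E n)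

theorem c2_comm (f g : E n → ℝ) : c2 w B c f g = c2 w B c g f := by
  simp only [c2, mul_comm]

theorem c3_swap12 (f g h : E n → ℝ) : c3 w B c f g h = c3 w B c g f h := by
  simp only [c3, c2, mul_comm, mul_left_comm, mul_assoc]
  ring

theorem c3_swap23 (f g h : E n → ℝ) : c3 w B c f g h = c3 w B c f h g := by
  simp only [c3, c2, mul_comm, mul_left_comm, mul_assoc]
  ring

theorem c4_swap12 (f g h k : E n → ℝ) : c4 w B c f g h k = c4 w B c g f h k := by
  simp only [c4, c3, c2, mul_comm, mul_left_comm, mul_assoc]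
  ring

theorem c4_swap23 (f g h k : E n → ℝ) : c4 w B c f g h k = c4 w B c f h g k := by
  simp only [c4, c3, c2, mul_comm, mul_left_comm, mul_assoc]
  ring

theorem c4_swap34 (f g h k : E n → ℝ) : c4 w B c f g h k = c4 w B c f g k h := by
  simp only [c4, c3, c2, mul_comm, mul_left_comm, mul_assoc]
  ring

end symm

end Vale.Agent.P254.Fr
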