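import Vale.Agent.P254.Frame829.Cum

/-!
P254, frame block (b) (helper829): the cumulant arrays, their first derivatives in the directions
`(0, e)` and `(Q, Q a)`.
-/

open MeasureTheory Filter Topology Matrix

namespace Vale.Agent.P254.Fr

variable {n : ℕ}

section prod

variable (w : E n → ℝ) (B : Mt n) (c : E n)

theorem Ev_prod (k l : E n → ℝ) :
    Ev w B c (fun x => k x * l x) = c2 w B c k l + Ev w B c k * Ev w B c l := by
  simp only [c2]
  ring

theorem c2_prod (f k l : E n → ℝ) : c2 w B c f (fun x => k x * l x)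
    = c3 w B c f k l + Ev w B c k * c2 w B c f l + Ev w B c l * c2 w B c f k := by
  simp only [c3, c2, mul_comm, mul_left_comm]
  ring

theorem c3_prod (f g k l : E n → ℝ) : c3 w B c f g (fun x => k x * l x)
    = (c4 w B c f g k l + c2 w B c f k * c2 w B c g l + c2 w B c f l * c2 w B c g k)
      + Ev w B c k * c3 w B c f g l + Ev w B c l * c3 w B c f g k := by
  simp only [c4, c3, c2, mul_comm, mul_left_comm]
  ring

theorem c4_prod (f g h k l : E n → ℝ) : c4 w B c f g h (fun x => k x * l x)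
    = (c5 w B c f g h k l
        + (c2 w B c f k * c3 w B c g h l + c2 w B c f l * c3 w B c g h k)
        + (c2 w B c g k * c3 w B c f h l + c2 w B c g l * c3 w B c f h k)
        + (c2 w B c h k * c3 w B c f g l + c2 w B c h l * c3 w B c f g k))
      + Ev w B c k * c4 w B c f g h l + Ev w B c l * c4 w B c f g h k := by
  simp only [c5, c4, c3, c2, mul_comm, mul_left_comm]
  ring

end prod

/-- linear functionals on the functions of polynomial growth -/
structure Lin (L : (E n → ℝ) → ℝ) : Prop where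
  add : ∀ p q, Pg p → Pg q → L (fun x => p x + q x) = L p + L q
  cmul : ∀ (r : ℝ) p, Pg p → L (fun x => r * p x) = r * L p

namespace Lin

theorem const_mul {L : (E n → ℝ) → ℝ} (h : Lin L) (r : ℝ) : Lin (fun p => r * L p) :=
  ⟨fun p q hp hq => by rw [h.add p q hp hq]; ring, fun s p hp => by rw [h.cmul s p hp]; ring⟩

theorem mul_const {L : (E n → ℝ) → ℝ} (h : Lin L) (r : ℝ) : Lin (fun p => L p * r) :=
  ⟨fun p q hp hq => by rw [h.add p q hp hq]; ring, fun s p hp => by rw [h.cmul s p hp]; ring⟩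

theorem sub {L L' : (E n → ℝ) → ℝ} (h : Lin L) (h' : Lin L') : Lin (fun p => L p - L' p) :=
  ⟨fun p q hp hq => by rw [h.add p q hp hq, h'.add p q hp hq]; ring,
    fun s p hp => by rw [h.cmul s p hp, h'.cmul s p hp]; ring⟩

theorem add' {L L' : (E n → ℝ) → ℝ} (h : Lin L) (h' : Lin L') : Lin (fun p => L p + L' p) :=
  ⟨fun p q hp hq => by rw [h.add p q hp hq, h'.add p q hp hq]; ring,
    fun s p hp => by rw [h.cmul s p hp, h'.cmul s p hp]; ring⟩

theorem comp {L : (E n → ℝ) → ℝ} (h : Lin L) {f : E n → ℝ} (hf : Pg f) :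
    Lin (fun p => L (fun x => f x * p x)) :=
  ⟨fun p q hp hq => by
      rw [← h.add _ _ (hf.mul hp) (hf.mul hq)]
      congr 1
      funext x
      ring,
    fun s p hp => by
      rw [← h.cmul s _ (hf.mul hp)]
      congr 1
      funext x
      ring⟩

theorem sum {L : (E n → ℝ) → ℝ} (h : Lin L) {ι : Type*} (s : Finset ι) (r : ι → ℝ)
    (f : ι → E n → ℝ) (hf : ∀ a ∈ s, Pg (f a)) :
    L (fun x => ∑ a ∈ s, r a * f a x) = ∑ a ∈ s, r a * L (f a) := by
  classical
  induction s using Finset.induction_on with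
  | empty =>
    simp only [Finset.sum_empty]
    have := h.cmul 0 (fun _ => 0) (Pg.const 0)
    simpa using this
  | insert a s ha ih =>
    simp only [Finset.sum_insert ha]
    have h1 : Pg (fun x => ∑ b ∈ s, r b * f b x) :=
      Pg.sum s fun b hb => (hf b (Finset.mem_insert_of_mem hb)).const_mul _
    rw [h.add _ _ ((hf a (Finset.mem_insert_self _ _)).const_mul _) h1,
      h.cmul _ _ (hf a (Finset.mem_insert_self _ _)),
      ih fun b hb => hf b (Finset.mem_insert_of_mem hb)]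

/-- value at a linear form -/
theorem dot {L : (E n → ℝ) → ℝ} (h : Lin L) (e : E n) :
    L (fun x => e ⬝ᵥ x) = ∑ k, e k * L (fun x => x k) :=
  h.sum Finset.univ e (fun k x => x k) fun k _ => Pg.coord k

/-- value at a quadratic form -/
theorem quad {L : (E n → ℝ) → ℝ} (h : Lin L) (Q : Mt n) :
    L (fun x => x ⬝ᵥ Q *ᵥ x) = ∑ k, ∑ l, Q k l * L (fun x => x k * x l) := by
  have e1 : (fun x : E n => x ⬝ᵥ Q *ᵥ x)
      = fun x => ∑ k, 1 * (∑ l, Q k l * (x k * x l)) := by
    funext x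
    unfold dotProduct Matrix.mulVec dotProduct
    refine Finset.sum_congr rfl fun k _ => ?_
    rw [one_mul, Finset.mul_sum]
    exact Finset.sum_congr rfl fun l _ => by ring
  rw [e1, h.sum Finset.univ (fun _ => 1) (fun k x => ∑ l, Q k l * (x k * x l)) fun k _ =>
    Pg.sum _ fun l _ => ((Pg.coord k).mul (Pg.coord l)).const_mul _]
  refine Finset.sum_congr rfl fun k _ => ?_
  rw [one_mul, h.sum Finset.univ (Q k) (fun l x => x k * x l) fun l _ =>
    (Pg.coord k).mul (Pg.coord l)]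

theorem ptv {L : (E n → ℝ) → ℝ} (h : Lin L) (Q : Mt n) (e : E n) :
    L (pt Q e) = ∑ k, e k * L (fun x => x k)
      - (1 / 2) * ∑ k, ∑ l, Q k l * L (fun x => x k * x l) := by
  have e1 : pt Q e = fun x => e ⬝ᵥ x + (-(1 / 2)) * (x ⬝ᵥ Q *ᵥ x) := by
    funext x
    unfold pt
    ring
  rw [e1, h.add _ _ (Pg.dot e) ((Pg.quad Q).const_mul _), h.cmul _ _ (Pg.quad Q), h.dot e,
    h.quad Q]
  ring

/-- value in the localization direction `(Q, Q a)` -/
theorem loc {L : (E n → ℝ) → ℝ} (h : Lin L) {Q : Mt n} (hQ : Q.IsSymm) (a : E n)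
    (G : Fin n → Fin n → ℝ)
    (hG : ∀ k l, L (fun x => x k * x l) = G k l + a k * L (fun x => x l) + a l * L (fun x => x k)) :
    L (pt Q (Q *ᵥ a)) = -(1 / 2) * ∑ k, ∑ l, Q k l * G k l := by
  rw [h.ptv]
  simp only [hG]
  have e1 : ∑ k, (Q *ᵥ a) k * L (fun x => x k) = ∑ k, ∑ l, Q k l * (a l * L (fun x => x k)) := by
    refine Finset.sum_congr rfl fun k _ => ?_
    rw [Matrix.mulVec, dotProduct, Finset.sum_mul]
    exact Finset.sum_congr rfl fun l _ => by ring
  have e2 : ∑ k, ∑ l, Q k l * (a k * L (fun x => x l))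
      = ∑ k, ∑ l, Q k l * (a l * L (fun x => x k)) := by
    rw [Finset.sum_comm]
    refine Finset.sum_congr rfl fun k _ => Finset.sum_congr rfl fun l _ => ?_
    rw [hQ.apply]
  have e3 : ∑ k, ∑ l, Q k l * (G k l + a k * L (fun x => x l) + a l * L (fun x => x k))
      = ∑ k, ∑ l, Q k l * G k l + ∑ k, ∑ l, Q k l * (a k * L (fun x => x l))
        + ∑ k, ∑ l, Q k l * (a l * L (fun x => x k)) := by
    simp only [← Finset.sum_add_distrib]
    refine Finset.sum_congr rfl fun k _ => Finset.sum_congr rfl fun l _ => ?_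
    ring
  rw [e1, e3, e2]
  ring

end Lin

section lin

variable {w : E n → ℝ} {m C : ℝ} {B : Mt n}

theorem lin_Ev (hw : Wt w m C) (hB : Adm m B) (c : E n) : Lin (Ev w B c) :=
  ⟨fun _ _ hp hq => Ev_add hw hB c hp hq, fun r p _ => Ev_const_mul w B c r p⟩

theorem lin_c2 (hw : Wt w m C) (hB : Adm m B) (c : E n) {f : E n → ℝ} (hf : Pg f) :
    Lin (c2 w B c f) :=
  ((lin_Ev hw hB c).comp hf).sub ((lin_Ev hw hB c).const_mul (Ev w B c f))

theorem lin_c3 (hw : Wt w m C) (hB : Adm m B) (c : E n) {f g : E n → ℝ} (hf : Pg f) (hg : Pg g) :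
    Lin (c3 w B c f g) :=
  ((lin_c2 hw hB c (hf.mul hg)).sub ((lin_c2 hw hB c hf).mul_const _)).sub
    ((lin_c2 hw hB c hg).const_mul _)

theorem lin_c4 (hw : Wt w m C) (hB : Adm m B) (c : E n) {f g h : E n → ℝ} (hf : Pg f) (hg : Pg g)
    (hh : Pg h) : Lin (c4 w B c f g h) :=
  ((lin_c3 hw hB c (hf.mul hg) hh).sub (((lin_c3 hw hB c hf hh).mul_const _).add'
    ((lin_c2 hw hB c hg).const_mul _))).sub
    (((lin_c2 hw hB c hf).mul_const _).add' ((lin_c3 hw hB c hg hh).const_mul _))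

theorem lin_c5 (hw : Wt w m C) (hB : Adm m B) (c : E n) {f g h k : E n → ℝ} (hf : Pg f)
    (hg : Pg g) (hh : Pg h) (hk : Pg k) : Lin (c5 w B c f g h k) :=
  ((lin_c4 hw hB c (hf.mul hg) hh hk).sub
    (((lin_c4 hw hB c hf hh hk).mul_const _).add' ((lin_c2 hw hB c hg).const_mul _) |>.add'
      (((lin_c3 hw hB c hf hh).mul_const _).add' ((lin_c3 hw hB c hg hk).const_mul _)))).sub
    ((((lin_c3 hw hB c hf hk).mul_const _).add' ((lin_c3 hw hB c hg hh).const_mul _)).add'
      (((lin_c2 hw hB c hf).mul_const _).add' ((lin_c4 hw hB c hg hh hk).const_mul _)))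

end lin

end Vale.Agent.P254.Fr
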