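import Vale.Agent.P254.Frame829.Arr

/-!
P254, frame block (b) (helper829): the differential entropy of the tilts and its derivatives.
-/

open MeasureTheory Filter Topology Matrix Asymptotics

namespace Vale.Agent.P254.Fr

variable {n : ℕ}

section defs

variable (w : E n → ℝ) (B : Mt n) (c : E n)

/-- minus the logarithm of the unnormalised density -/
noncomputable def ps (x : E n) : ℝ := (1 / 2) * (x ⬝ᵥ B *ᵥ x) - c ⬝ᵥ x - Real.log (w x)

/-- differential entropy of the tilt -/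
noncomputable def EntF : ℝ := Real.log (I w B c (fun _ => 1)) + Ev w B c (ps w B c)

/-- its gradient in `c` -/
noncomputable def gF : E n := fun i => c2 w B c (ps w B c) (co i)

/-- its Hessian in `c` -/
noncomputable def XiF : Mt n := Matrix.of fun i j =>
  c3 w B c (ps w B c) (co i) (co j) - AF w B c i j

end defs

variable {w : E n → ℝ} {m C : ℝ}

theorem pg_ps (hw : Wt w m C) (B : Mt n) (c : E n) : Pg (ps w B c) :=
  (((Pg.quad B).const_mul (1 / 2)).sub (Pg.dot c)).sub hw.pg_log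

theorem ps_line (w : E n → ℝ) (B Q : Mt n) (c e : E n) (t : ℝ) :
    ps w (B + t • Q) (c + t • e) = fun x => ps w B c x - t * pt Q e x := by
  funext x
  unfold ps pt
  rw [add_dotProduct, smul_dotProduct, Matrix.add_mulVec, Matrix.smul_mulVec,
    dotProduct_add, dotProduct_smul, smul_eq_mul, smul_eq_mul]
  ring

theorem adm_line (hm : 0 < m) {B : Mt n} (hB : ∀ x : E n, 0 ≤ x ⬝ᵥ B *ᵥ x) (Q : Mt n) :
    ∀ᶠ t : ℝ in 𝓝 0, Adm m (B + t • Q) := by
  set q : ℝ := ∑ i, ∑ j, |Q i j| with hq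
  have hq0 : 0 ≤ q := Finset.sum_nonneg fun i _ => Finset.sum_nonneg fun j _ => abs_nonneg _
  have hδ0 : 0 < m / (4 * (q + 1)) := by positivity
  filter_upwards [Metric.ball_mem_nhds (0 : ℝ) hδ0] with t ht x
  have ht' : |t| < m / (4 * (q + 1)) := by simpa using ht
  rw [Matrix.add_mulVec, Matrix.smul_mulVec, dotProduct_add, dotProduct_smul, smul_eq_mul]
  have h1 := hB x
  have h2 := abs_quad_le Q x
  have h3 := dot_self_nonneg x
  have h4 : |t * (x ⬝ᵥ Q *ᵥ x)| ≤ m / 4 * (x ⬝ᵥ x) := by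
    rw [abs_mul]
    have h5 : |t| * q ≤ m / 4 := by
      calc |t| * q ≤ m / (4 * (q + 1)) * (q + 1) :=
            mul_le_mul ht'.le (by linarith) hq0 (by positivity)
        _ = m / 4 := by field_simp
    calc |t| * |x ⬝ᵥ Q *ᵥ x| ≤ |t| * (q * (x ⬝ᵥ x)) :=
          mul_le_mul_of_nonneg_left h2 (abs_nonneg _)
      _ = |t| * q * (x ⬝ᵥ x) := by ring
      _ ≤ m / 4 * (x ⬝ᵥ x) := mul_le_mul_of_nonneg_right h5 h3
  have h7 := (abs_le.1 h4).1
  linarith

/-- derivative of the entropy in the direction `(Q, e)` -/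
theorem dEnt (hw : Wt w m C) {B : Mt n} (hB : ∀ x : E n, 0 ≤ x ⬝ᵥ B *ᵥ x) (Q : Mt n) (c e : E n) :
    HasDerivAt (fun t : ℝ => EntF w (B + t • Q) (c + t • e))
      (c2 w B c (ps w B c) (pt Q e)) 0 := by
  have hadm := adm_of_nonneg hw.m_pos hB
  have h1 := hasDerivAt_I hw hB Q c e (Pg.const (n := n) 1)
  have hpos := I_one_pos hw hadm c
  have hne : I w (B + (0 : ℝ) • Q) (c + (0 : ℝ) • e) (fun _ => 1) ≠ 0 := by
    rw [zero_smul, zero_smul, add_zero, add_zero]
    exact hpos.ne'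
  have h2 := h1.log hne
  simp only [zero_smul, add_zero, one_mul] at h2
  have hp := Pg.pt Q e
  have hps := pg_ps hw B c
  have h3 := d1 hw hB Q c e hps
  have h4 := (hasDerivAt_id (0 : ℝ)).mul (d1 hw hB Q c e hp)
  simp only [id, zero_smul, add_zero, zero_mul, one_mul] at h4
  have h5 := h2.add (h3.sub h4)
  have e1 : I w B c (fun x => pt Q e x) / I w B c (fun _ => 1)
      + (c2 w B c (ps w B c) (pt Q e) - Ev w B c (pt Q e)) = c2 w B c (ps w B c) (pt Q e) := by
    unfold Ev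
    ring
  rw [e1] at h5
  refine h5.congr_of_eventuallyEq ?_
  filter_upwards [adm_line hw.m_pos hB Q] with t ht
  unfold EntF
  rw [ps_line w B Q c e t, Ev_sub hw ht _ hps (hp.const_mul t), Ev_const_mul]
  rfl

/-- the first derivative in `c` at every time -/
theorem dEnt1 (hw : Wt w m C) {B : Mt n} (hB : B.PosSemidef) (c e : E n) (t : ℝ) :
    HasDerivAt (fun t : ℝ => EntF w B (c + t • e))
      (c2 w B (c + t • e) (ps w B (c + t • e)) (fun x => e ⬝ᵥ x)) t := by
  refine shift (u := fun c => EntF w B c) t ?_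
  have h := dEnt hw (nonneg_of_psd hB) 0 (c + t • e) e
  simp only [smul_zero, add_zero] at h
  rw [pt_zero] at h
  exact h

/-- the second derivative in `c` -/
theorem dEnt2 (hw : Wt w m C) {B : Mt n} (hB : B.PosSemidef) (c e : E n) :
    HasDerivAt (fun t : ℝ => c2 w B (c + t • e) (ps w B (c + t • e)) (fun x => e ⬝ᵥ x))
      (∑ i, ∑ j, XiF w B c i j * e i * e j) 0 := by
  have hadm := adm_of_posSemidef hw.m_pos hB
  have hps := pg_ps hw B c
  have hd := Pg.dot e
  have h1 := d2 hw (nonneg_of_psd hB) 0 c e hps hd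
  have h2 := (hasDerivAt_id (0 : ℝ)).mul (d2 hw (nonneg_of_psd hB) 0 c e hd hd)
  have h3 := h1.sub h2
  simp only [id, smul_zero, zero_smul, add_zero, zero_mul, one_mul] at h3
  rw [pt_zero] at h3
  have e1 : ∑ i, ∑ j, XiF w B c i j * e i * e j
      = c3 w B c (ps w B c) (fun x => e ⬝ᵥ x) (fun x => e ⬝ᵥ x)
        - c2 w B c (fun x => e ⬝ᵥ x) (fun x => e ⬝ᵥ x) := by
    rw [(lin_c3 hw hadm c hps hd).dot e, (lin_c2 hw hadm c hd).dot e]
    have e2 : ∀ k, c3 w B c (ps w B c) (fun x => e ⬝ᵥ x) (fun x => x k)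
        = ∑ j, e j * c3 w B c (ps w B c) (co k) (co j) := fun k => by
      rw [c3_swap23]
      exact (lin_c3 hw hadm c hps (pg_co k)).dot e
    have e3 : ∀ k, c2 w B c (fun x => e ⬝ᵥ x) (fun x => x k) = ∑ j, e j * AF w B c k j := fun k => by
      rw [c2_comm]
      exact (lin_c2 hw hadm c (pg_co k)).dot e
    simp only [e2, e3]
    rw [← Finset.sum_sub_distrib]
    refine Finset.sum_congr rfl fun i _ => ?_
    rw [← mul_sub, ← Finset.sum_sub_distrib, Finset.mul_sum]
    refine Finset.sum_congr rfl fun j _ => ?_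
    simp only [XiF, Matrix.of_apply]
    ring
  rw [e1]
  refine h3.congr_of_eventuallyEq (Eventually.of_forall fun t => ?_)
  have h4 := ps_line w B 0 c e t
  rw [smul_zero, add_zero] at h4
  show c2 w B (c + t • e) (ps w B (c + t • e)) (fun x => e ⬝ᵥ x)
    = c2 w B (c + t • e) (ps w B c) (fun x => e ⬝ᵥ x)
      - t * c2 w B (c + t • e) (fun x => e ⬝ᵥ x) (fun x => e ⬝ᵥ x)
  rw [h4]
  have h5 : c2 w B (c + t • e) (fun x => ps w B c x - t * pt 0 e x) (fun x => e ⬝ᵥ x)
      = c2 w B (c + t • e) (ps w B c) (fun x => e ⬝ᵥ x)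
        - t * c2 w B (c + t • e) (fun x => e ⬝ᵥ x) (fun x => e ⬝ᵥ x) := by
    have hl := lin_c2 hw hadm (c + t • e) hd
    have e4 : (fun x => ps w B c x - t * pt 0 e x) = fun x => ps w B c x + (-t) * (e ⬝ᵥ x) := by
      funext x
      rw [pt_zero]
      ring
    rw [c2_comm, e4, hl.add _ _ hps (hd.const_mul _), hl.cmul _ _ hd, c2_comm w B _ (ps w B c)]
    ring
  exact h5

/-- second order Taylor expansion from two derivatives -/
theorem taylor2 {f f' : ℝ → ℝ} {d : ℝ} (h1 : ∀ t, HasDerivAt f (f' t) t)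
    (h2 : HasDerivAt f' d 0) :
    (fun t : ℝ => f t - f 0 - t * f' 0 - t ^ 2 / 2 * d) =o[𝓝 0] fun t : ℝ => t ^ 2 := by
  rw [isLittleO_iff]
  intro ε hε
  have h3 := (hasDerivAt_iff_isLittleO.1 h2).def hε
  rw [Metric.eventually_nhds_iff] at h3
  obtain ⟨δ, hδ, h4⟩ := h3
  rw [Metric.eventually_nhds_iff]
  refine ⟨δ, hδ, fun t ht => ?_⟩
  have ht' : |t| < δ := by simpa using ht
  have hcv : Convex ℝ (Metric.closedBall (0 : ℝ) |t|) := convex_closedBall _ _
  have key := hcv.norm_image_sub_le_of_norm_hasDerivWithin_le (𝕜 := ℝ)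
    (f := fun t => f t - f 0 - t * f' 0 - t ^ 2 / 2 * d)
    (f' := fun s => f' s - f' 0 - s * d) (C := ε * |t|) (x := 0) (y := t)
    (fun s _ => ?_) (fun s hs => ?_) (by simp) (by simp)
  · have e0 : f 0 - f 0 - 0 * f' 0 - (0 : ℝ) ^ 2 / 2 * d = 0 := by ring
    rw [e0, sub_zero, sub_zero, Real.norm_eq_abs t] at key
    have e1 : ε * ‖t ^ 2‖ = ε * |t| * |t| := by
      rw [Real.norm_eq_abs, abs_pow]
      ring
    rw [e1]
    exact key
  · have e1 : f' s - f' 0 - s * d = f' s - 0 - 1 * f' 0 - (2 * s) / 2 * d := by ring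
    rw [e1]
    refine HasDerivAt.hasDerivWithinAt ?_
    have a1 : HasDerivAt (fun t : ℝ => t * f' 0) (1 * f' 0) s := (hasDerivAt_id s).mul_const _
    have a2 : HasDerivAt (fun t : ℝ => t ^ 2 / 2 * d) ((2 * s) / 2 * d) s := by
      have := (((hasDerivAt_id s).pow 2).div_const 2).mul_const d
      simpa using this
    exact (((h1 s).sub (hasDerivAt_const s (f 0))).sub a1).sub a2
  · have hs' : |s| ≤ |t| := by simpa using hs
    have h5 := h4 (y := s) (by simpa using hs'.trans_lt ht')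
    simp only [sub_zero, smul_eq_mul] at h5
    rw [Real.norm_eq_abs] at h5 ⊢
    calc |f' s - f' 0 - s * d| ≤ ε * ‖s‖ := h5
      _ ≤ ε * |t| := mul_le_mul_of_nonneg_left hs' hε.le

theorem dE (hw : Wt w m C) (B : Mt n) (hB : B.PosSemidef) (c e : E n) :
    (fun t : ℝ => EntF w B (c + t • e) - EntF w B c - t * (∑ i, gF w B c i * e i)
      - t ^ 2 / 2 * ∑ i, ∑ j, XiF w B c i j * e i * e j) =o[𝓝 0] fun t : ℝ => t ^ 2 := by
  have h := taylor2 (dEnt1 hw hB c e) (dEnt2 hw hB c e)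
  simp only [zero_smul, add_zero] at h
  have e1 : ∑ i, gF w B c i * e i = c2 w B c (ps w B c) (fun x => e ⬝ᵥ x) := by
    rw [(lin_c2 hw (adm_of_posSemidef hw.m_pos hB) c (pg_ps hw B c)).dot e]
    exact Finset.sum_congr rfl fun i _ => mul_comm _ _
  rw [e1]
  exact h

theorem fE (hw : Wt w m C) (B : Mt n) (hB : B.PosSemidef) (c : E n) (Q : Mt n)
    (hQ : Q.PosSemidef) :
    HasDerivWithinAt (fun t : ℝ => EntF w (B + t • Q) (c + t • (Q *ᵥ muF w B c)))
      (-(1 / 2) * ((Q * AF w B c).trace + ∑ i, ∑ j, Q i j * XiF w B c i j)) (Set.Ici 0) 0 := by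
  have h := dEnt hw (nonneg_of_psd hB) Q c (Q *ᵥ muF w B c)
  rw [c2_loc hw (adm_of_posSemidef hw.m_pos hB) c (isSymm_of_psd hQ) (pg_ps hw B c)] at h
  have e1 : (Q * AF w B c).trace + ∑ i, ∑ j, Q i j * XiF w B c i j
      = ∑ k, ∑ l, Q k l * c3 w B c (ps w B c) (co k) (co l) := by
    rw [Matrix.trace, ← Finset.sum_add_distrib]
    refine Finset.sum_congr rfl fun k _ => ?_
    rw [Matrix.diag_apply, Matrix.mul_apply, ← Finset.sum_add_distrib]
    refine Finset.sum_congr rfl fun l _ => ?_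
    rw [AF_symm w B c l k]
    simp only [XiF, Matrix.of_apply]
    ring
  rw [e1]
  exact h.hasDerivWithinAt

theorem cE (hw : Wt w m C) :
    ContinuousOn (fun p : Mt n × E n => EntF w p.1 p.2) ({B | B.PosSemidef} ×ˢ Set.univ) := by
  refine ContinuousOn.mono ?_ (psd_subset hw.m_pos)
  unfold EntF
  refine ContinuousOn.add ?_ ?_
  · exact (continuousOn_I hw (Pg.const 1)).log fun z hz => (I_one_pos hw hz z.2).ne'
  · have h1 : ContinuousOn (fun z : Mt n × E n =>
        (1 / 2) * ∑ k, ∑ l, z.1 k l * Ev w z.1 z.2 (fun x => x k * x l)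
          - ∑ k, z.2 k * Ev w z.1 z.2 (fun x => x k) - Ev w z.1 z.2 (fun x => Real.log (w x)))
        {z | Adm m z.1} := by
      refine ((continuousOn_const.mul ?_).sub ?_).sub (cEv hw hw.pg_log)
      · refine continuousOn_finsetSum _ fun k _ => continuousOn_finsetSum _ fun l _ => ?_
        refine ContinuousOn.mul ?_ (cEv hw ((Pg.coord k).mul (Pg.coord l)))
        exact ((continuous_apply_apply k l).comp continuous_fst).continuousOn
      · refine continuousOn_finsetSum _ fun k _ => ?_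
        refine ContinuousOn.mul ?_ (cEv hw (Pg.coord k))
        exact ((continuous_apply k).comp continuous_snd).continuousOn
    refine h1.congr fun z hz => ?_
    have hl := lin_Ev hw hz z.2
    show Ev w z.1 z.2 (fun x => (1 / 2) * (x ⬝ᵥ z.1 *ᵥ x) - z.2 ⬝ᵥ x - Real.log (w x)) = _
    rw [Ev_sub hw hz z.2 (((Pg.quad z.1).const_mul (1 / 2)).sub (Pg.dot z.2)) hw.pg_log,
      Ev_sub hw hz z.2 ((Pg.quad z.1).const_mul (1 / 2)) (Pg.dot z.2), Ev_const_mul,
      hl.quad, hl.dot]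

/-- the entropy is `-∫ ρ log ρ` for the normalised density `ρ` -/
theorem EntF_eq (hw : Wt w m C) {B : Mt n} (hB : Adm m B) (c : E n) :
    EntF w B c = -∫ x, (tl B c x * w x / I w B c (fun _ => 1))
      * Real.log (tl B c x * w x / I w B c (fun _ => 1)) := by
  have hpos := I_one_pos hw hB c
  have h1 : ∀ x, (tl B c x * w x / I w B c (fun _ => 1))
      * Real.log (tl B c x * w x / I w B c (fun _ => 1))
      = (I w B c (fun _ => 1))⁻¹ * -((Real.log (I w B c (fun _ => 1)) + ps w B c x)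
        * (tl B c x * w x)) := by
    intro x
    have hx := mul_pos (tl_pos B c x) (hw.pos x)
    rw [Real.log_div hx.ne' hpos.ne', Real.log_mul (tl_pos B c x).ne' (hw.pos x).ne']
    unfold tl ps
    rw [Real.log_exp]
    ring
  simp only [h1]
  rw [integral_const_mul, integral_neg]
  have h2 : EntF w B c = Ev w B c (fun x => Real.log (I w B c (fun _ => 1)) + ps w B c x) := by
    rw [Ev_add hw hB c (Pg.const _) (pg_ps hw B c), Ev_const hw hB c]
    rfl
  rw [h2]
  unfold Ev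
  rw [div_eq_inv_mul]
  unfold I
  ring

end Vale.Agent.P254.Fr
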