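import Vale.Agent.P254.Frame829.Ent

/-!
P254, frame block (b) (helper829): the Gaussian weight.
-/

open MeasureTheory Filter Topology Matrix

namespace Vale.Agent.P254.Fr

variable {n : ℕ}

/-- Gaussian weight -/
noncomputable def gw (M : ℝ) (x : E n) : ℝ := Real.exp (-(M / 2) * (x ⬝ᵥ x))

theorem wt_gw {M : ℝ} (hM : 0 < M) : Wt (gw (n := n) M) M (1 + M / 2) where
  m_pos := hM
  meas := by
    unfold gw dotProduct
    fun_prop
  pos x := Real.exp_pos _
  le x := by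
    unfold gw
    have := Real.exp_pos (-(M / 2) * (x ⬝ᵥ x))
    nlinarith
  log_le x := by
    unfold gw
    have h := dot_self_nonneg x
    rw [Real.log_exp, abs_mul, abs_neg, abs_of_pos (half_pos hM), abs_of_nonneg h]
    nlinarith

/-- the precision matrix -/
noncomputable def HF (B : Mt n) (M : ℝ) : Mt n := B + M • (1 : Mt n)

/-- the covariance matrix of the Gaussian -/
noncomputable def GF (B : Mt n) (M : ℝ) : Mt n := (HF B M)⁻¹

section alg

variable {B : Mt n} {M : ℝ}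

theorem HF_posDef (hM : 0 < M) (hB : B.PosSemidef) : (HF B M).PosDef :=
  Matrix.PosDef.posSemidef_add hB (Matrix.PosDef.one.smul hM)

theorem GF_posDef (hM : 0 < M) (hB : B.PosSemidef) : (GF B M).PosDef := (HF_posDef hM hB).inv

theorem symm_of_posDef {G : Mt n} (hG : G.PosDef) : G.IsSymm := isSymm_of_psd hG.posSemidef

theorem HF_mul_GF (hM : 0 < M) (hB : B.PosSemidef) : HF B M * GF B M = 1 :=
  Matrix.mul_nonsing_inv _ ((Matrix.isUnit_iff_isUnit_det _).1 (HF_posDef hM hB).isUnit)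

theorem GF_mul_HF (hM : 0 < M) (hB : B.PosSemidef) : GF B M * HF B M = 1 :=
  Matrix.nonsing_inv_mul _ ((Matrix.isUnit_iff_isUnit_det _).1 (HF_posDef hM hB).isUnit)

theorem quad_symm {G : Mt n} (hG : G.IsSymm) (x y : E n) : x ⬝ᵥ G *ᵥ y = y ⬝ᵥ G *ᵥ x := by
  rw [dotProduct_mulVec, dotProduct_comm, ← Matrix.mulVec_transpose, hG]

theorem quad_add {G : Mt n} (hG : G.IsSymm) (x y : E n) :
    (x + y) ⬝ᵥ G *ᵥ (x + y) = x ⬝ᵥ G *ᵥ x + 2 * (y ⬝ᵥ G *ᵥ x) + y ⬝ᵥ G *ᵥ y := by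
  rw [Matrix.mulVec_add, add_dotProduct, dotProduct_add, dotProduct_add, quad_symm hG x y]
  ring

theorem quad_line {G : Mt n} (hG : G.IsSymm) (x e : E n) (t : ℝ) :
    (x + t • e) ⬝ᵥ G *ᵥ (x + t • e)
      = x ⬝ᵥ G *ᵥ x + 2 * t * (e ⬝ᵥ G *ᵥ x) + t ^ 2 * (e ⬝ᵥ G *ᵥ e) := by
  rw [quad_add hG, Matrix.mulVec_smul, smul_dotProduct, smul_dotProduct, dotProduct_smul,
    smul_eq_mul, smul_eq_mul, smul_eq_mul]
  ring

theorem tl_gw (B : Mt n) (M : ℝ) (a x : E n) :
    tl B a x * gw M x = Real.exp (a ⬝ᵥ x - (1 / 2) * (x ⬝ᵥ HF B M *ᵥ x)) := by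
  unfold tl gw HF
  rw [← Real.exp_add, Matrix.add_mulVec, Matrix.smul_mulVec, Matrix.one_mulVec, dotProduct_add,
    dotProduct_smul, smul_eq_mul]
  congr 1
  ring

/-- translation -/
theorem gI (hM : 0 < M) (hB : B.PosSemidef) (a : E n) :
    I (gw M) B a (fun _ => 1)
      = Real.exp ((1 / 2) * (a ⬝ᵥ GF B M *ᵥ a)) * I (gw M) B 0 (fun _ => 1) := by
  have hs := symm_of_posDef (HF_posDef hM hB)
  unfold I
  rw [← integral_const_mul, ← integral_add_right_eq_self _ (GF B M *ᵥ a)]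
  congr 1
  funext z
  rw [one_mul, one_mul, tl_gw, tl_gw, ← Real.exp_add]
  congr 1
  have h1 : HF B M *ᵥ (GF B M *ᵥ a) = a := by
    rw [Matrix.mulVec_mulVec, HF_mul_GF hM hB, Matrix.one_mulVec]
  rw [quad_add hs, quad_symm hs (GF B M *ᵥ a) z, h1, dotProduct_add, zero_dotProduct,
    dotProduct_comm z a, dotProduct_comm (GF B M *ᵥ a) a]
  ring

theorem g_dot (hM : 0 < M) (hB : B.PosSemidef) (a e : E n) :
    Ev (gw M) B a (fun x => e ⬝ᵥ x) = e ⬝ᵥ GF B M *ᵥ a := by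
  have hw := wt_gw (n := n) hM
  have hG := symm_of_posDef (GF_posDef hM hB)
  have h1 := hasDerivAt_I hw (nonneg_of_psd hB) 0 a e (Pg.const (n := n) 1)
  simp only [smul_zero, add_zero, one_mul] at h1
  have hpos := I_one_pos hw (adm_of_posSemidef hM hB) a
  have h2 : HasDerivAt (fun t : ℝ => Real.exp ((1 / 2) * (a ⬝ᵥ GF B M *ᵥ a
      + 2 * t * (e ⬝ᵥ GF B M *ᵥ a) + t ^ 2 * (e ⬝ᵥ GF B M *ᵥ e))) * I (gw M) B 0 (fun _ => 1))
      ((e ⬝ᵥ GF B M *ᵥ a) * I (gw M) B a (fun _ => 1)) 0 := by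
    have a1 : HasDerivAt (fun t : ℝ => (1 / 2) * (a ⬝ᵥ GF B M *ᵥ a
        + 2 * t * (e ⬝ᵥ GF B M *ᵥ a) + t ^ 2 * (e ⬝ᵥ GF B M *ᵥ e)))
        (e ⬝ᵥ GF B M *ᵥ a) 0 := by
      have b1 : HasDerivAt (fun t : ℝ => 2 * t * (e ⬝ᵥ GF B M *ᵥ a)) (2 * (e ⬝ᵥ GF B M *ᵥ a)) 0 := by
        simpa using ((hasDerivAt_id (0 : ℝ)).const_mul 2).mul_const (e ⬝ᵥ GF B M *ᵥ a)
      have b2 : HasDerivAt (fun t : ℝ => t ^ 2 * (e ⬝ᵥ GF B M *ᵥ e)) 0 0 := by
        simpa using ((hasDerivAt_id (0 : ℝ)).pow 2).mul_const (e ⬝ᵥ GF B M *ᵥ e)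
      have b3 := (((b1.const_add (a ⬝ᵥ GF B M *ᵥ a)).add b2).const_mul (1 / 2))
      refine b3.congr_deriv ?_
      ring
    have a2 := a1.exp.mul_const (I (gw M) B 0 (fun _ => 1))
    refine a2.congr_deriv ?_
    rw [gI hM hB a]
    ring_nf
  have h3 : HasDerivAt (fun t : ℝ => I (gw M) B (a + t • e) (fun _ => 1))
      ((e ⬝ᵥ GF B M *ᵥ a) * I (gw M) B a (fun _ => 1)) 0 := by
    refine h2.congr_of_eventuallyEq (Eventually.of_forall fun t => ?_)
    show I (gw M) B (a + t • e) (fun _ => 1) = _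
    rw [gI hM hB, quad_line hG]
  have h4 := h1.unique h3
  rw [pt_zero] at h4
  unfold Ev
  rw [h4, mul_div_assoc, div_self hpos.ne', mul_one]

theorem g_co (hM : 0 < M) (hB : B.PosSemidef) (a : E n) (i : Fin n) :
    Ev (gw M) B a (co i) = (GF B M *ᵥ a) i := by
  have h := g_dot hM hB a (Pi.single i 1)
  simp only [single_dotProduct, one_mul] at h
  exact h

theorem g_cov (hM : 0 < M) (hB : B.PosSemidef) (a : E n) (i j : Fin n) :
    c2 (gw M) B a (co i) (co j) = GF B M i j := by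
  have hw := wt_gw (n := n) hM
  have h1 := dmu hw B hB a (Pi.single j 1) i 0
  have h2 : HasDerivAt (fun t : ℝ => muF (gw M) B (a + t • Pi.single j 1) i) (GF B M i j) 0 := by
    have e1 : ∀ t : ℝ, muF (gw M) B (a + t • Pi.single j 1) i = (GF B M *ᵥ a) i + t * GF B M i j := by
      intro t
      unfold muF
      rw [g_co hM hB, Matrix.mulVec_add, Matrix.mulVec_smul]
      simp
    have e2 : (fun t : ℝ => muF (gw M) B (a + t • Pi.single j 1) i)
        = fun t : ℝ => (GF B M *ᵥ a) i + t * GF B M i j := funext e1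
    rw [e2]
    simpa using ((hasDerivAt_id (0 : ℝ)).mul_const (GF B M i j)).const_add ((GF B M *ᵥ a) i)
  have h3 := h1.unique h2
  simp only [zero_smul, add_zero] at h3
  rw [← h3]
  simp [AF_apply, Pi.single_apply]

theorem g_c3 (hM : 0 < M) (hB : B.PosSemidef) (a : E n) (i j k : Fin n) :
    c3 (gw M) B a (co i) (co j) (co k) = 0 := by
  have hw := wt_gw (n := n) hM
  have h1 := dA hw B hB a (Pi.single k 1) i j 0
  have h2 : HasDerivAt (fun t : ℝ => AF (gw M) B (a + t • Pi.single k 1) i j) 0 0 := by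
    have e2 : (fun t : ℝ => AF (gw M) B (a + t • Pi.single k 1) i j) = fun _ => GF B M i j := by
      funext t
      exact g_cov hM hB _ i j
    rw [e2]
    exact hasDerivAt_const _ _
  have h3 := h1.unique h2
  simp only [zero_smul, add_zero] at h3
  rw [← h3]
  simp [TF, Pi.single_apply]

/-- second moments -/
theorem g_2 (hM : 0 < M) (hB : B.PosSemidef) (a : E n) (i j : Fin n) :
    Ev (gw M) B a (fun x => co i x * co j x)
      = GF B M i j + (GF B M *ᵥ a) i * (GF B M *ᵥ a) j := by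
  rw [Ev_prod, g_cov hM hB, g_co hM hB, g_co hM hB]

/-- third moments -/
theorem g_3 (hM : 0 < M) (hB : B.PosSemidef) (a : E n) (i j k : Fin n) :
    Ev (gw M) B a (fun x => co i x * co j x * co k x)
      = GF B M i k * (GF B M *ᵥ a) j + GF B M j k * (GF B M *ᵥ a) i
        + GF B M i j * (GF B M *ᵥ a) k
        + (GF B M *ᵥ a) i * (GF B M *ᵥ a) j * (GF B M *ᵥ a) k := by
  have h := g_c3 hM hB a i j k
  unfold c3 at h
  rw [g_cov hM hB, g_cov hM hB, g_co hM hB, g_co hM hB] at h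
  have h2 : Ev (gw M) B a (fun x => co i x * co j x * co k x)
      = c2 (gw M) B a (fun x => co i x * co j x) (co k)
        + Ev (gw M) B a (fun x => co i x * co j x) * Ev (gw M) B a (co k) := by
    unfold c2
    ring
  rw [h2, g_2 hM hB, g_co hM hB]
  linear_combination h

end alg

section sqrt

open scoped MatrixOrder

theorem exists_factor {H : Mt n} (hH : H.PosSemidef) : ∃ R : Mt n, H = Rᵀ * R := by
  obtain ⟨R, hR⟩ := CStarAlgebra.nonneg_iff_eq_star_mul_self.mp hH.nonneg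
  refine ⟨R, ?_⟩
  rw [hR, Matrix.star_eq_conjTranspose, Matrix.conjTranspose_eq_transpose_of_trivial]

end sqrt

/-- the Gaussian integral of a positive definite form -/
theorem gauss_int {H : Mt n} (hH : H.PosDef) :
    ∫ x : E n, Real.exp (-(1 / 2) * (x ⬝ᵥ H *ᵥ x))
      = Real.exp ((n : ℝ) / 2 * Real.log (2 * Real.pi) - 1 / 2 * Real.log H.det) := by
  obtain ⟨R, hR⟩ := exists_factor hH.posSemidef
  have hdet : H.det = R.det ^ 2 := by
    rw [hR, Matrix.det_mul, Matrix.det_transpose]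
    ring
  have hHd : 0 < H.det := hH.det_pos
  have hRd : R.det ≠ 0 := by
    intro h
    rw [hdet, h] at hHd
    simp at hHd
  have h1 : ∀ x : E n, x ⬝ᵥ H *ᵥ x = (R *ᵥ x) ⬝ᵥ (R *ᵥ x) := by
    intro x
    rw [hR, ← Matrix.mulVec_mulVec, dotProduct_mulVec, Matrix.vecMul_transpose]
  have h2 := Real.map_matrix_volume_pi_eq_smul_volume_pi (M := R) hRd
  have hcont : Continuous fun x : E n => Real.exp (-(1 / 2) * (x ⬝ᵥ x)) := by
    unfold dotProduct
    fun_prop
  have h3 : ∫ x : E n, Real.exp (-(1 / 2) * ((R *ᵥ x) ⬝ᵥ (R *ᵥ x)))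
      = |R.det|⁻¹ * ∫ x : E n, Real.exp (-(1 / 2) * (x ⬝ᵥ x)) := by
    have h4 : ∫ x : E n, Real.exp (-(1 / 2) * (x ⬝ᵥ x))
        ∂(Measure.map (⇑(Matrix.toLin' R)) (volume : Measure (E n)))
        = ∫ x : E n, Real.exp (-(1 / 2) * ((R *ᵥ x) ⬝ᵥ (R *ᵥ x))) := by
      rw [integral_map]
      · rfl
      · exact (LinearMap.continuous_on_pi (Matrix.toLin' R)).measurable.aemeasurable
      · exact hcont.aestronglyMeasurable
    rw [← h4, h2, integral_smul_measure, ENNReal.toReal_ofReal (abs_nonneg _), abs_inv,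
      smul_eq_mul]
  have h5 : ∫ x : E n, Real.exp (-(1 / 2) * (x ⬝ᵥ x)) = (√(2 * Real.pi)) ^ n := by
    have e1 : (fun x : E n => Real.exp (-(1 / 2) * (x ⬝ᵥ x)))
        = fun x : E n => ∏ i, Real.exp (-(1 / 2) * x i ^ 2) := by
      funext x
      rw [← Real.exp_sum]
      congr 1
      unfold dotProduct
      rw [Finset.mul_sum]
      exact Finset.sum_congr rfl fun i _ => by ring
    rw [e1, integral_fintype_prod_volume_eq_pow (fun t : ℝ => Real.exp (-(1 / 2) * t ^ 2)),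
      integral_gaussian]
    rw [Fintype.card_fin]
    congr 2
    field_simp
  have h6 : (fun x : E n => Real.exp (-(1 / 2) * (x ⬝ᵥ H *ᵥ x)))
      = fun x : E n => Real.exp (-(1 / 2) * ((R *ᵥ x) ⬝ᵥ (R *ᵥ x))) := by
    funext x
    rw [h1 x]
  rw [h6, h3, h5, Real.exp_sub]
  have h7 : Real.exp ((n : ℝ) / 2 * Real.log (2 * Real.pi)) = (√(2 * Real.pi)) ^ n := by
    have hp : 0 < 2 * Real.pi := by positivity
    have e1 : Real.exp ((n : ℝ) / 2 * Real.log (2 * Real.pi))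
        = Real.exp ((n : ℝ) * Real.log (√(2 * Real.pi))) := by
      congr 1
      rw [Real.log_sqrt hp.le]
      ring
    rw [e1, ← Real.log_pow, Real.exp_log (pow_pos (Real.sqrt_pos.2 hp) n)]
  have h8 : Real.exp (1 / 2 * Real.log H.det) = |R.det| := by
    have e1 : 1 / 2 * Real.log H.det = Real.log |R.det| := by
      rw [hdet, Real.log_pow, Real.log_abs]
      push_cast
      ring
    rw [e1, Real.exp_log (abs_pos.2 hRd)]
  rw [h7, h8, div_eq_inv_mul]

theorem gI_zero {B : Mt n} {M : ℝ} (hM : 0 < M) (hB : B.PosSemidef) :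
    I (gw M) B 0 (fun _ => 1)
      = Real.exp ((n : ℝ) / 2 * Real.log (2 * Real.pi) - 1 / 2 * Real.log (HF B M).det) := by
  rw [← gauss_int (HF_posDef hM hB)]
  unfold I
  congr 1
  funext x
  rw [one_mul, tl_gw, zero_dotProduct]
  congr 1
  ring

/-- entropy of a Gaussian -/
theorem g_ent {B : Mt n} {M : ℝ} (hM : 0 < M) (hB : B.PosSemidef) (a : E n) :
    EntF (gw M) B a = (n : ℝ) / 2 * Real.log (2 * Real.pi * Real.exp 1)
      - 1 / 2 * Real.log (HF B M).det := by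
  have hw := wt_gw (n := n) hM
  have hadm := adm_of_posSemidef hM hB
  have hG := symm_of_posDef (GF_posDef hM hB)
  unfold EntF
  rw [gI hM hB a, gI_zero hM hB, ← Real.exp_add, Real.log_exp]
  have e1 : ps (gw M) B a = fun x => (1 / 2) * (x ⬝ᵥ HF B M *ᵥ x) - a ⬝ᵥ x := by
    funext x
    unfold ps gw HF
    rw [Real.log_exp, Matrix.add_mulVec, Matrix.smul_mulVec, Matrix.one_mulVec, dotProduct_add,
      dotProduct_smul, smul_eq_mul]
    ring
  rw [e1, Ev_sub hw hadm a ((Pg.quad _).const_mul _) (Pg.dot a), Ev_const_mul, g_dot hM hB,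
    (lin_Ev hw hadm a).quad]
  have e2 : ∀ k l, Ev (gw M) B a (fun x => x k * x l)
      = GF B M k l + (GF B M *ᵥ a) k * (GF B M *ᵥ a) l := g_2 hM hB a
  simp only [e2]
  have e3 : ∑ k, ∑ l, HF B M k l * (GF B M k l + (GF B M *ᵥ a) k * (GF B M *ᵥ a) l)
      = n + a ⬝ᵥ GF B M *ᵥ a := by
    have e4 : ∑ k, ∑ l, HF B M k l * GF B M k l = n := by
      have e5 : (HF B M * GF B M).trace = n := by
        rw [HF_mul_GF hM hB, Matrix.trace_one, Fintype.card_fin]
      rw [← e5, Matrix.trace]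
      refine Finset.sum_congr rfl fun k _ => ?_
      rw [Matrix.diag_apply, Matrix.mul_apply]
      refine Finset.sum_congr rfl fun l _ => ?_
      rw [hG.apply]
    have e6 : ∑ k, ∑ l, HF B M k l * ((GF B M *ᵥ a) k * (GF B M *ᵥ a) l)
        = (GF B M *ᵥ a) ⬝ᵥ HF B M *ᵥ (GF B M *ᵥ a) := by
      have e8 : ∀ b : E n, b ⬝ᵥ HF B M *ᵥ b = ∑ k, ∑ l, HF B M k l * (b k * b l) := by
        intro b
        rw [dotProduct]
        refine Finset.sum_congr rfl fun k _ => ?_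
        rw [Matrix.mulVec, dotProduct, Finset.mul_sum]
        exact Finset.sum_congr rfl fun l _ => by ring
      exact (e8 _).symm
    have e7 : HF B M *ᵥ (GF B M *ᵥ a) = a := by
      rw [Matrix.mulVec_mulVec, HF_mul_GF hM hB, Matrix.one_mulVec]
    rw [e7] at e6
    simp only [mul_add, Finset.sum_add_distrib]
    rw [e4, e6, dotProduct_comm]
  rw [e3, Real.log_mul (by positivity) (Real.exp_pos 1).ne', Real.log_exp]
  ring

end Vale.Agent.P254.Fr
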