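import Vale.Agent.P254.Frame829.Low
import Vale.Agent.P254.Frame829.BL

/-!
P254, frame block (b) (helper829): the interface structures `TiltData`, `EntData` for the nice
measures `wK K ε m dx`, `K` a strictly convex body, `ε, m > 0`.
-/

open MeasureTheory Filter Topology Matrix

namespace Vale.Agent.P254.Fr

open L (Mat Ten NN N3 frT TiltData EntData TSymm)

variable {n : ℕ} {K : Set (E n)} {ε m : ℝ}

/-- the cumulant data of a nice measure -/
noncomputable def tiltData (hK : IsCompact K) (hs : StrictConvex ℝ K) (hi : (interior K).Nonempty)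
    (hε : 0 < ε) (hm : 0 < m) : TiltData n where
  m := m
  M := m + 1 / ε
  hm := hm
  hM := le_add_of_nonneg_right (by positivity)
  mu := muF (wK K ε m)
  A := AF (wK K ε m)
  T := TF (wK K ε m)
  K := KF (wK K ε m)
  R := RF (wK K ε m)
  A_symm := fun B c i j => AF_symm _ B c i j
  T_symm := fun B c => ⟨fun i j k => TF_symm1 _ B c i j k, fun i j k => TF_symm2 _ B c i j k⟩
  K_symm1 := fun B c i j k l => KF_symm1 _ B c i j k l
  K_symm2 := fun B c i j k l => KF_symm2 _ B c i j k l
  K_symm3 := fun B c i j k l => KF_symm3 _ B c i j k l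
  dA := fun B hB c e i j t => dA (wt_wK hK hi hε hm).choose_spec B hB c e i j t
  dT := fun B hB c e i j k t => dT (wt_wK hK hi hε hm).choose_spec B hB c e i j k t
  dK := fun B hB c e i j k l t => dK (wt_wK hK hi hε hm).choose_spec B hB c e i j k l t
  fA := fun B hB c Q hQ i j => fA (wt_wK hK hi hε hm).choose_spec B hB c Q hQ i j
  fT := fun B hB c Q hQ i j k => fT (wt_wK hK hi hε hm).choose_spec B hB c Q hQ i j k
  cA := fun i j => cA (wt_wK hK hi hε hm).choose_spec i j
  cT := fun i j k => cT (wt_wK hK hi hε hm).choose_spec i j k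
  posA := fun B hB c => posA hK hi hε hm B hB c
  lo := fun B hB c => lo hK hi hε hm B hB c
  up := fun B hB c => up hK hs.convex hi hε hm B hB c
  CT := (bT hK hi hε hm).choose
  hCT := (bT hK hi hε hm).choose_spec.1
  bT := (bT hK hi hε hm).choose_spec.2
  vT := vT hK hs hi hε hm

/-- the entropy data of a nice measure -/
noncomputable def entData (hK : IsCompact K) (hs : StrictConvex ℝ K) (hi : (interior K).Nonempty)
    (hε : 0 < ε) (hm : 0 < m) : EntData (tiltData hK hs hi hε hm) where
  Ent := EntF (wK K ε m)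
  g := gF (wK K ε m)
  Xi := XiF (wK K ε m)
  dE := fun B hB c e => dE (wt_wK hK hi hε hm).choose_spec B hB c e
  fE := fun B hB c Q hQ => fE (wt_wK hK hi hε hm).choose_spec B hB c Q hQ
  cE := cE (wt_wK hK hi hε hm).choose_spec
  lowE := fun B hB c => lowE hK hi hε hm B hB c
  vA := vA hK hs hi hε hm

end Vale.Agent.P254.Fr
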