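import Vale.Agent.P254.Frame829.Nice2

/-!
P254, frame block (b) (helper829): Gibbs' inequality and the lower bound of the entropy of a
mixture.
-/

open MeasureTheory Filter Topology Matrix

namespace Vale.Agent.P254.Fr

open R304 (IY EY)

variable {n : ℕ}

theorem cont_Ev {w : E n → ℝ} {m C : ℝ} (hw : Wt w m C) {B : Mt n} (hB : Adm m B) {f : E n → ℝ}
    (hf : Pg f) : Continuous fun a : E n => Ev w B a f := by
  have h := cEv hw hf
  have h2 : Continuous fun a : E n => ((B, a) : Mt n × E n) := by fun_prop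
  exact h.comp_continuous h2 fun a => hB

theorem cont_Ev2 {w : E n → ℝ} {m C : ℝ} (hw : Wt w m C) {B : Mt n} (hB : Adm m B) {f : E n → ℝ}
    (hf : Pg f) (c : E n) (r : ℝ) : Continuous fun y : E n => Ev w B (c + r • y) f := by
  have h2 : Continuous fun y : E n => c + r • y := by fun_prop
  exact (cont_Ev hw hB hf).comp h2

theorem EntF_eq_Ev {w : E n → ℝ} {m C : ℝ} (hw : Wt w m C) {B : Mt n} (hB : Adm m B) (c : E n) :
    EntF w B c = Ev w B c (fun x => Real.log (I w B c (fun _ => 1)) + ps w B c x) := by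
  rw [Ev_add hw hB c (Pg.const _) (pg_ps hw B c), Ev_const hw hB]
  rfl

/-- Gibbs' inequality -/
theorem gibbs {w w' : E n → ℝ} {m C m' C' : ℝ} (hw : Wt w m C) (hw' : Wt w' m' C')
    {B B' : Mt n} (hB : Adm m B) (hB' : Adm m' B') (c c' : E n) :
    EntF w' B' c' ≤ Ev w' B' c' (fun x => Real.log (I w B c (fun _ => 1)) + ps w B c x) := by
  set J := I w B c (fun _ => 1) with hJ
  set J' := I w' B' c' (fun _ => 1) with hJ'
  have hJ0 : 0 < J := I_one_pos hw hB c
  have hJ'0 : 0 < J' := I_one_pos hw' hB' c'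
  have p1 : Pg (fun x => Real.log J + ps w B c x) := (Pg.const _).add (pg_ps hw B c)
  have p2 : Pg (fun x => Real.log J' + ps w' B' c' x) := (Pg.const _).add (pg_ps hw' B' c')
  have h1 : EntF w' B' c' = Ev w' B' c' (fun x => Real.log J' + ps w' B' c' x) := by
    rw [Ev_add hw' hB' c' (Pg.const _) (pg_ps hw' B' c'), Ev_const hw' hB']
    rfl
  rw [h1]
  unfold Ev
  rw [← hJ']
  refine div_le_div_of_nonneg_right ?_ hJ'0.le
  have i1 := integrable_I hw' hB' c' p1
  have i2 := integrable_I hw' hB' c' p2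
  have i3 := integrable_I hw hB c (Pg.const (n := n) 1)
  have i4 := integrable_I hw' hB' c' (Pg.const (n := n) 1)
  have i5 : Integrable (fun x => (J' / J) * (1 * (tl B c x * w x)) - 1 * (tl B' c' x * w' x)) :=
    (i3.const_mul (J' / J)).sub i4
  have h2 : ∫ x, ((Real.log J + ps w B c x) * (tl B' c' x * w' x)
      + ((J' / J) * (1 * (tl B c x * w x)) - 1 * (tl B' c' x * w' x)))
      = I w' B' c' (fun x => Real.log J + ps w B c x) := by
    rw [integral_add i1 i5, integral_sub (i3.const_mul _) i4, integral_const_mul]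
    have e1 : ∫ x, (1 : ℝ) * (tl B c x * w x) = J := rfl
    have e2 : ∫ x, (1 : ℝ) * (tl B' c' x * w' x) = J' := rfl
    rw [e1, e2, div_mul_cancel₀ _ hJ0.ne', sub_self, add_zero]
    rfl
  rw [← h2]
  unfold I
  refine integral_mono i2 (i1.add i5) fun x => ?_
  show (Real.log J' + ps w' B' c' x) * (tl B' c' x * w' x)
    ≤ (Real.log J + ps w B c x) * (tl B' c' x * w' x)
      + ((J' / J) * (1 * (tl B c x * w x)) - 1 * (tl B' c' x * w' x))
  have hp : 0 < tl B c x * w x := mul_pos (tl_pos B c x) (hw.pos x)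
  have hq : 0 < tl B' c' x * w' x := mul_pos (tl_pos B' c' x) (hw'.pos x)
  have e1 : ps w B c x = - Real.log (tl B c x * w x) := by
    rw [Real.log_mul (tl_pos B c x).ne' (hw.pos x).ne']
    unfold tl ps
    rw [Real.log_exp]
    ring
  have e2 : ps w' B' c' x = - Real.log (tl B' c' x * w' x) := by
    rw [Real.log_mul (tl_pos B' c' x).ne' (hw'.pos x).ne']
    unfold tl ps
    rw [Real.log_exp]
    ring
  rw [e1, e2]
  generalize tl B c x * w x = p at hp
  generalize tl B' c' x * w' x = q at hq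
  have h3 : Real.log ((p / J) / (q / J')) ≤ (p / J) / (q / J') - 1 :=
    Real.log_le_sub_one_of_pos (by positivity)
  rw [Real.log_div (by positivity) (by positivity), Real.log_div hp.ne' hJ0.ne',
    Real.log_div hq.ne' hJ'0.ne'] at h3
  have h4 := mul_le_mul_of_nonneg_left h3 hq.le
  have h5 : q * ((p / J) / (q / J') - 1) = (J' / J) * (1 * p) - 1 * q := by
    field_simp
  rw [h5] at h4
  linarith

theorem lowE {K : Set (E n)} {ε m : ℝ} (hK : IsCompact K) (hi : (interior K).Nonempty)
    (hε : 0 < ε) (hm : 0 < m) (B : Mt n) (hB : B.PosSemidef) (c : E n) :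
    (n : ℝ) / 2 * Real.log (2 * Real.pi * Real.exp 1)
      - 1 / 2 * Real.log (B + (m + 1 / ε) • (1 : Mt n)).det ≤ EntF (wK K ε m) B c := by
  have hM : 0 < m + 1 / ε := by positivity
  obtain ⟨C, hw⟩ := wt_wK hK hi hε hm
  have hadm := adm_of_posSemidef hm hB
  have hw' := wt_gw (n := n) hM
  have hadm' := adm_of_posSemidef hM hB
  have hfp : Pg (fun x => Real.log (I (wK K ε m) B c (fun _ => 1)) + ps (wK K ε m) B c x) :=
    (Pg.const _).add (pg_ps hw B c)
  have h1 := EntF_eq_Ev hw hadm c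
  have h4 := fun y : E n => gibbs hw hw' hadm hadm' c (c + (1 / ε) • y)
  simp only [g_ent hM hB] at h4
  generalize (fun x => Real.log (I (wK K ε m) B c (fun _ => 1)) + ps (wK K ε m) B c x) = f
    at hfp h1 h4
  rw [h1, Ev_mix hK hi hε hm hB c hfp]
  have hcont : Continuous fun y : E n => Ev (gw (m + 1 / ε)) B (c + (1 / ε) • y) f :=
    cont_Ev2 hw' hadm' hfp c (1 / ε)
  rw [← R304.EY_const (N := NF B ε m) (v := vF B ε m c) hK hi
    ((n : ℝ) / 2 * Real.log (2 * Real.pi * Real.exp 1)
      - 1 / 2 * Real.log (B + (m + 1 / ε) • (1 : Mt n)).det)]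
  exact R304.EY_mono hK hi continuous_const hcont fun y _ => h4 y

end Vale.Agent.P254.Fr
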