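import Vale.Agent.P254.Frame829.Gau
import Vale.Agent.P254.R304.Conc

/-!
P254, frame block (b) (helper829): the nice weights `wK` and the mixture representation of their
tilts.
-/

open MeasureTheory Filter Topology Matrix

namespace Vale.Agent.P254.Fr

open R304 (IY EY)

variable {n : ℕ}

/-- heat-flowed indicator -/
noncomputable def gau (K : Set (E n)) (ε : ℝ) (x : E n) : ℝ :=
  ∫ y in K, Real.exp (-(1 / (2 * ε)) * ((x - y) ⬝ᵥ (x - y)))

/-- the nice weights -/
noncomputable def wK (K : Set (E n)) (ε m : ℝ) (x : E n) : ℝ :=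
  gau K ε x * Real.exp (-(m / 2) * (x ⬝ᵥ x))

section weight

variable {K : Set (E n)} {ε m : ℝ}

theorem cont_dot : Continuous fun x : E n => x ⬝ᵥ x := by
  unfold dotProduct
  fun_prop

theorem cont_sub_dot : Continuous fun p : E n × E n => (p.1 - p.2) ⬝ᵥ (p.1 - p.2) := by
  unfold dotProduct
  fun_prop

theorem vol_pos (hK : IsCompact K) (hi : (interior K).Nonempty) : 0 < (volume K).toReal :=
  ENNReal.toReal_pos
    ((isOpen_interior.measure_pos _ hi).trans_le (measure_mono interior_subset)).ne'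
    hK.measure_lt_top.ne

theorem int_kernel (hK : IsCompact K) (x : E n) :
    IntegrableOn (fun y => Real.exp (-(1 / (2 * ε)) * ((x - y) ⬝ᵥ (x - y)))) K := by
  have hc : Continuous fun y : E n => Real.exp (-(1 / (2 * ε)) * ((x - y) ⬝ᵥ (x - y))) := by
    unfold dotProduct
    fun_prop
  exact hc.continuousOn.integrableOn_compact hK

theorem meas_gau (K : Set (E n)) (ε : ℝ) : Measurable (gau K ε) := by
  have h : StronglyMeasurable (Function.uncurry fun x y : E n =>
      Real.exp (-(1 / (2 * ε)) * ((x - y) ⬝ᵥ (x - y)))) := by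
    refine Continuous.stronglyMeasurable ?_
    exact Real.continuous_exp.comp (continuous_const.mul cont_sub_dot)
  exact (h.integral_prod_right (ν := volume.restrict K)).measurable

theorem gau_le (hK : IsCompact K) (hε : 0 < ε) (x : E n) : gau K ε x ≤ (volume K).toReal := by
  unfold gau
  calc ∫ y in K, Real.exp (-(1 / (2 * ε)) * ((x - y) ⬝ᵥ (x - y)))
      ≤ ∫ _y in K, (1 : ℝ) := by
        refine setIntegral_mono_on (int_kernel hK x) (integrableOn_const hK.measure_lt_top.ne)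
          hK.measurableSet fun y _ => ?_
        rw [Real.exp_le_one_iff]
        have h1 := dot_self_nonneg (x - y)
        have h2 : 0 < 1 / (2 * ε) := by positivity
        nlinarith
    _ = _ := by
        rw [setIntegral_const, smul_eq_mul, mul_one, Measure.real]

theorem dot_sub_le (x y : E n) : (x - y) ⬝ᵥ (x - y) ≤ 2 * (x ⬝ᵥ x) + 2 * (y ⬝ᵥ y) := by
  unfold dotProduct
  rw [Finset.mul_sum, Finset.mul_sum, ← Finset.sum_add_distrib]
  refine Finset.sum_le_sum fun i _ => ?_
  simp only [Pi.sub_apply]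
  nlinarith [sq_nonneg (x i + y i)]

theorem dot_le_norm (y : E n) : y ⬝ᵥ y ≤ n * ‖y‖ ^ 2 := by
  unfold dotProduct
  calc ∑ i, y i * y i ≤ ∑ _i : Fin n, ‖y‖ ^ 2 := by
        refine Finset.sum_le_sum fun i _ => ?_
        have h := norm_le_pi_norm y i
        rw [Real.norm_eq_abs] at h
        nlinarith [sq_abs (y i), abs_nonneg (y i), norm_nonneg y]
    _ = _ := by simp

/-- `K` is bounded -/
theorem exists_bd (hK : IsCompact K) : ∃ D : ℝ, 0 ≤ D ∧ ∀ y ∈ K, y ⬝ᵥ y ≤ D := by
  obtain ⟨D, hD⟩ := (hK.image_of_continuousOn cont_dot.continuousOn).bddAbove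
  refine ⟨max D 0, le_max_right _ _, fun y hy => (hD ⟨y, hy, rfl⟩).trans (le_max_left _ _)⟩

theorem le_gau (hK : IsCompact K) (hε : 0 < ε) {D : ℝ} (hD : ∀ y ∈ K, y ⬝ᵥ y ≤ D) (x : E n) :
    (volume K).toReal * Real.exp (-(1 / ε) * (x ⬝ᵥ x + D)) ≤ gau K ε x := by
  unfold gau
  calc (volume K).toReal * Real.exp (-(1 / ε) * (x ⬝ᵥ x + D))
      = ∫ _y in K, Real.exp (-(1 / ε) * (x ⬝ᵥ x + D)) := by
        rw [setIntegral_const, smul_eq_mul, Measure.real]
    _ ≤ _ := by
        refine setIntegral_mono_on (integrableOn_const hK.measure_lt_top.ne) (int_kernel hK x)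
          hK.measurableSet fun y hy => ?_
        refine Real.exp_le_exp.2 ?_
        have h1 := dot_sub_le x y
        have h2 := hD y hy
        have h3 : 1 / (2 * ε) * ((x - y) ⬝ᵥ (x - y)) ≤ 1 / (2 * ε) * (2 * (x ⬝ᵥ x + D)) :=
          mul_le_mul_of_nonneg_left (by linarith) (by positivity)
        have h4 : 1 / (2 * ε) * (2 * (x ⬝ᵥ x + D)) = 1 / ε * (x ⬝ᵥ x + D) := by
          field_simp
        rw [h4] at h3
        linarith

theorem gau_pos (hK : IsCompact K) (hi : (interior K).Nonempty) (hε : 0 < ε) (x : E n) :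
    0 < gau K ε x := by
  obtain ⟨D, _, hD⟩ := exists_bd hK
  exact (mul_pos (vol_pos hK hi) (Real.exp_pos _)).trans_le (le_gau hK hε hD x)

theorem wt_wK (hK : IsCompact K) (hi : (interior K).Nonempty) (hε : 0 < ε) (hm : 0 < m) :
    ∃ C, Wt (wK K ε m) m C := by
  obtain ⟨D, hD0, hD⟩ := exists_bd hK
  set V := (volume K).toReal with hV
  have hV0 : 0 < V := vol_pos hK hi
  refine ⟨V + |Real.log V| + (1 / ε) * (1 + D) + m / 2, hm, ?_, fun x => ?_, fun x => ?_,
    fun x => ?_⟩
  · unfold wK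
    refine (meas_gau K ε).mul (Measurable.exp (Measurable.const_mul ?_ _))
    exact cont_dot.measurable
  · exact mul_pos (gau_pos hK hi hε x) (Real.exp_pos _)
  · unfold wK
    refine mul_le_mul_of_nonneg_right ?_ (Real.exp_pos _).le
    have h1 := gau_le hK hε x
    have h2 : 0 ≤ |Real.log V| := abs_nonneg _
    have h3 : 0 ≤ (1 / ε) * (1 + D) := by positivity
    linarith
  · have hg := gau_pos hK hi hε x
    have hxx := dot_self_nonneg x
    unfold wK
    rw [Real.log_mul hg.ne' (Real.exp_pos _).ne', Real.log_exp]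
    have h1 : Real.log (gau K ε x) ≤ Real.log V := Real.log_le_log hg (gau_le hK hε x)
    have h2 : Real.log V - (1 / ε) * (x ⬝ᵥ x + D) ≤ Real.log (gau K ε x) := by
      have h3 := Real.log_le_log (mul_pos hV0 (Real.exp_pos _)) (le_gau hK hε hD x)
      rw [Real.log_mul hV0.ne' (Real.exp_pos _).ne', Real.log_exp] at h3
      linarith
    have h4 := abs_le.1 (le_refl |Real.log V|)
    have h5 : 0 ≤ (1 / ε) * D := by positivity
    have h6 : 0 ≤ (1 / ε) := by positivity
    have h7 : 0 ≤ V * (x ⬝ᵥ x) := by positivity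
    have h8 : 0 ≤ |Real.log V| * (x ⬝ᵥ x) := by positivity
    have h9 : 0 ≤ (1 / ε) * D * (x ⬝ᵥ x) := by positivity
    have h10 : 0 ≤ (1 / ε) * (x ⬝ᵥ x) := by positivity
    rw [abs_le]
    constructor
    · nlinarith
    · nlinarith

end weight

section mixture

variable {K : Set (E n)} {ε m : ℝ}

theorem kernel_id (hε : 0 < ε) (m : ℝ) (B : Mt n) (c x y : E n) :
    tl B c x * (Real.exp (-(1 / (2 * ε)) * ((x - y) ⬝ᵥ (x - y))) * gw m x)
      = Real.exp (-(1 / (2 * ε)) * (y ⬝ᵥ y))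
        * (tl B (c + (1 / ε) • y) x * gw (m + 1 / ε) x) := by
  unfold tl gw
  rw [← Real.exp_add, ← Real.exp_add, ← Real.exp_add, ← Real.exp_add]
  congr 1
  rw [add_dotProduct, smul_dotProduct, smul_eq_mul, sub_dotProduct, dotProduct_sub,
    dotProduct_sub, dotProduct_comm x y]
  field_simp
  ring

/-- Fubini -/
theorem I_wK (hK : IsCompact K) (hε : 0 < ε) (hm : 0 < m) {B : Mt n} (hB : B.PosSemidef)
    (c : E n) {φ : E n → ℝ} (hφ : Pg φ) :
    I (wK K ε m) B c φ = ∫ y in K, Real.exp (-(1 / (2 * ε)) * (y ⬝ᵥ y))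
      * I (gw (m + 1 / ε)) B (c + (1 / ε) • y) φ := by
  have hw := wt_gw (n := n) hm
  set F : E n → E n → ℝ := fun x y =>
    φ x * (tl B c x * (Real.exp (-(1 / (2 * ε)) * ((x - y) ⬝ᵥ (x - y))) * gw m x)) with hF
  have h1 : I (wK K ε m) B c φ = ∫ x, ∫ y in K, F x y := by
    unfold I
    congr 1
    funext x
    simp only [hF]
    rw [integral_const_mul, integral_const_mul, integral_mul_const]
    rfl
  have hint0 := integrable_I hw (adm_of_posSemidef hm hB) c hφ
  haveI : IsFiniteMeasure (volume.restrict K) := ⟨by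
    rw [Measure.restrict_apply_univ]; exact hK.measure_lt_top⟩
  have hint : Integrable (Function.uncurry F) (volume.prod (volume.restrict K)) := by
    refine (hint0.comp_fst (volume.restrict K)).mono ?_ (Eventually.of_forall fun p => ?_)
    · refine Measurable.aestronglyMeasurable ?_
      show Measurable fun p : E n × E n => F p.1 p.2
      simp only [hF]
      refine (hφ.1.comp measurable_fst).mul (((measurable_tl B c).comp measurable_fst).mul
        (Measurable.mul ?_ (hw.meas.comp measurable_fst)))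
      exact (Real.continuous_exp.comp (continuous_const.mul cont_sub_dot)).measurable
    · show ‖F p.1 p.2‖ ≤ ‖φ p.1 * (tl B c p.1 * gw m p.1)‖
      simp only [hF]
      have h3 : Real.exp (-(1 / (2 * ε)) * ((p.1 - p.2) ⬝ᵥ (p.1 - p.2))) ≤ 1 := by
        rw [Real.exp_le_one_iff]
        have h1 := dot_self_nonneg (p.1 - p.2)
        have h2 : 0 < 1 / (2 * ε) := by positivity
        nlinarith
      rw [norm_mul, norm_mul (φ p.1)]
      refine mul_le_mul_of_nonneg_left ?_ (norm_nonneg _)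
      rw [norm_mul, norm_mul (tl B c p.1)]
      refine mul_le_mul_of_nonneg_left ?_ (norm_nonneg _)
      rw [norm_mul, Real.norm_eq_abs, abs_of_pos (Real.exp_pos _)]
      exact mul_le_of_le_one_left (norm_nonneg _) h3
  rw [h1, integral_integral_swap hint]
  congr 1
  funext y
  unfold I
  rw [← integral_const_mul]
  congr 1
  funext x
  simp only [hF]
  rw [kernel_id hε]
  ring

/-- the tilt vector of the mixing variable -/
noncomputable def vF (B : Mt n) (ε m : ℝ) (c : E n) : E n := (1 / ε) • (GF B (m + 1 / ε) *ᵥ c)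

/-- the quadratic part of the mixing variable -/
noncomputable def NF (B : Mt n) (ε m : ℝ) : Mt n :=
  (1 / ε) • (1 : Mt n) - (1 / ε ^ 2) • GF B (m + 1 / ε)

theorem mix_exp (hε : 0 < ε) (hm : 0 < m) {B : Mt n} (hB : B.PosSemidef) (c y : E n) :
    Real.exp (-(1 / (2 * ε)) * (y ⬝ᵥ y))
      * Real.exp ((1 / 2) * ((c + (1 / ε) • y) ⬝ᵥ GF B (m + 1 / ε) *ᵥ (c + (1 / ε) • y)))
    = Real.exp ((1 / 2) * (c ⬝ᵥ GF B (m + 1 / ε) *ᵥ c))
      * Real.exp (vF B ε m c ⬝ᵥ y - (1 / 2) * (y ⬝ᵥ NF B ε m *ᵥ y)) := by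
  have hG := symm_of_posDef (GF_posDef (add_pos hm (by positivity : (0:ℝ) < 1 / ε)) hB)
  rw [← Real.exp_add, ← Real.exp_add]
  congr 1
  rw [quad_line hG]
  unfold vF NF
  rw [Matrix.sub_mulVec, Matrix.smul_mulVec, Matrix.smul_mulVec, Matrix.one_mulVec,
    dotProduct_sub, dotProduct_smul, dotProduct_smul, smul_dotProduct, smul_eq_mul, smul_eq_mul,
    smul_eq_mul, dotProduct_comm (GF B (m + 1 / ε) *ᵥ c) y]
  field_simp
  ring

/-- the mixture representation -/
theorem I_mix (hK : IsCompact K) (hε : 0 < ε) (hm : 0 < m) {B : Mt n} (hB : B.PosSemidef)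
    (c : E n) {φ : E n → ℝ} (hφ : Pg φ) :
    I (wK K ε m) B c φ = I (gw (m + 1 / ε)) B 0 (fun _ => 1)
      * Real.exp ((1 / 2) * (c ⬝ᵥ GF B (m + 1 / ε) *ᵥ c))
      * IY K (NF B ε m) (vF B ε m c) (fun y => Ev (gw (m + 1 / ε)) B (c + (1 / ε) • y) φ) := by
  have hM : 0 < m + 1 / ε := add_pos hm (by positivity)
  rw [I_wK hK hε hm hB c hφ]
  unfold IY
  rw [← integral_const_mul]
  congr 1
  funext y
  have h1 : I (gw (m + 1 / ε)) B (c + (1 / ε) • y) φ
      = Ev (gw (m + 1 / ε)) B (c + (1 / ε) • y) φ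
        * I (gw (m + 1 / ε)) B (c + (1 / ε) • y) (fun _ => 1) := by
    unfold Ev
    rw [div_mul_cancel₀]
    exact (I_one_pos (wt_gw hM) (adm_of_posSemidef hM hB) _).ne'
  rw [h1, gI hM hB]
  have h2 := mix_exp hε hm hB c y
  linear_combination (Ev (gw (m + 1 / ε)) B (c + (1 / ε) • y) φ
    * I (gw (m + 1 / ε)) B 0 (fun _ => 1)) * h2

theorem I_mix_one (hK : IsCompact K) (hε : 0 < ε) (hm : 0 < m) {B : Mt n} (hB : B.PosSemidef)
    (c : E n) :
    I (wK K ε m) B c (fun _ => 1) = I (gw (m + 1 / ε)) B 0 (fun _ => 1)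
      * Real.exp ((1 / 2) * (c ⬝ᵥ GF B (m + 1 / ε) *ᵥ c))
      * IY K (NF B ε m) (vF B ε m c) (fun _ => 1) := by
  have hM : 0 < m + 1 / ε := add_pos hm (by positivity)
  rw [I_mix hK hε hm hB c (Pg.const 1)]
  congr 2
  funext y
  exact Ev_one (wt_gw hM) (adm_of_posSemidef hM hB) _

theorem Ev_mix (hK : IsCompact K) (hi : (interior K).Nonempty) (hε : 0 < ε) (hm : 0 < m)
    {B : Mt n} (hB : B.PosSemidef) (c : E n) {φ : E n → ℝ} (hφ : Pg φ) :
    Ev (wK K ε m) B c φ = EY K (NF B ε m) (vF B ε m c)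
      (fun y => Ev (gw (m + 1 / ε)) B (c + (1 / ε) • y) φ) := by
  have hM : 0 < m + 1 / ε := add_pos hm (by positivity)
  have h1 := I_one_pos (wt_gw (n := n) hM) (adm_of_posSemidef hM hB) 0
  have h2 : 0 < IY K (NF B ε m) (vF B ε m c) (fun _ => 1) := R304.IY_one_pos hK hi
  have h3 := Real.exp_pos ((1 / 2) * (c ⬝ᵥ GF B (m + 1 / ε) *ᵥ c))
  unfold EY
  have h4 : Ev (wK K ε m) B c φ = I (wK K ε m) B c φ / I (wK K ε m) B c (fun _ => 1) := rfl
  rw [h4, I_mix hK hε hm hB c hφ, I_mix_one hK hε hm hB c]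
  exact mul_div_mul_left _ _ (mul_pos h1 h3).ne'

end mixture

end Vale.Agent.P254.Fr
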