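import Mathlib

/-!
P254, frame block (b) (helper829): calculus of the tilted moments
`I w B c φ = ∫ φ(x) exp(⟨c,x⟩ - ⟨x,Bx⟩/2) w(x) dx` of a weight `w` with Gaussian decay.
-/

open MeasureTheory Filter Topology Matrix

namespace Vale.Agent.P254.Fr

variable {n : ℕ}

/-- vectors -/
abbrev E (n : ℕ) := Fin n → ℝ
/-- matrices -/
abbrev Mt (n : ℕ) := Matrix (Fin n) (Fin n) ℝ

/-- the weights: positive, Gaussian decay, logarithm of quadratic growth -/
structure Wt (w : E n → ℝ) (m C : ℝ) : Prop where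
  m_pos : 0 < m
  meas : Measurable w
  pos : ∀ x, 0 < w x
  le : ∀ x, w x ≤ C * Real.exp (-(m / 2) * (x ⬝ᵥ x))
  log_le : ∀ x, |Real.log (w x)| ≤ C * (1 + x ⬝ᵥ x)

/-- measurable functions of polynomial growth -/
def Pg (φ : E n → ℝ) : Prop := Measurable φ ∧ ∃ (C : ℝ) (k : ℕ), ∀ x, |φ x| ≤ C * (1 + x ⬝ᵥ x) ^ k

theorem dot_self_nonneg (x : E n) : 0 ≤ x ⬝ᵥ x :=
  Finset.sum_nonneg fun i _ => mul_self_nonneg (x i)

theorem one_le_dot (x : E n) : 1 ≤ 1 + x ⬝ᵥ x := le_add_of_nonneg_right (dot_self_nonneg x)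

theorem sq_le_dot (x : E n) (i : Fin n) : x i ^ 2 ≤ x ⬝ᵥ x := by
  rw [pow_two]
  exact Finset.single_le_sum (f := fun i => x i * x i) (fun i _ => mul_self_nonneg (x i))
    (Finset.mem_univ i)

namespace Pg

theorem exists_pos {f : E n → ℝ} (hf : Pg f) :
    ∃ (C : ℝ) (k : ℕ), 0 ≤ C ∧ ∀ x, |f x| ≤ C * (1 + x ⬝ᵥ x) ^ k := by
  obtain ⟨C, k, h⟩ := hf.2
  refine ⟨C, k, ?_, h⟩
  have := (abs_nonneg _).trans (h 0)
  simpa using this

theorem const (c : ℝ) : Pg (fun _ : E n => c) := ⟨measurable_const, |c|, 0, fun x => by simp⟩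

theorem coord (i : Fin n) : Pg (fun x : E n => x i) := by
  refine ⟨measurable_pi_apply i, 1, 1, fun x => ?_⟩
  rw [one_mul, pow_one]
  have := sq_le_dot x i
  nlinarith [abs_nonneg (x i), sq_abs (x i), sq_nonneg (|x i| - 1)]

theorem add {f g : E n → ℝ} (hf : Pg f) (hg : Pg g) : Pg (fun x => f x + g x) := by
  obtain ⟨C, m, hC, h⟩ := hf.exists_pos
  obtain ⟨D, k, hD, h'⟩ := hg.exists_pos
  refine ⟨hf.1.add hg.1, C + D, max m k, fun x => ?_⟩
  have h1 := one_le_dot x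
  have e1 : (1 + x ⬝ᵥ x) ^ m ≤ (1 + x ⬝ᵥ x) ^ (max m k) :=
    pow_le_pow_right₀ h1 (le_max_left _ _)
  have e2 : (1 + x ⬝ᵥ x) ^ k ≤ (1 + x ⬝ᵥ x) ^ (max m k) :=
    pow_le_pow_right₀ h1 (le_max_right _ _)
  calc |f x + g x| ≤ |f x| + |g x| := abs_add_le _ _
    _ ≤ C * (1 + x ⬝ᵥ x) ^ m + D * (1 + x ⬝ᵥ x) ^ k := add_le_add (h x) (h' x)
    _ ≤ C * (1 + x ⬝ᵥ x) ^ (max m k) + D * (1 + x ⬝ᵥ x) ^ (max m k) :=
        add_le_add (mul_le_mul_of_nonneg_left e1 hC) (mul_le_mul_of_nonneg_left e2 hD)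
    _ = _ := by ring

theorem mul {f g : E n → ℝ} (hf : Pg f) (hg : Pg g) : Pg (fun x => f x * g x) := by
  obtain ⟨C, m, hC, h⟩ := hf.exists_pos
  obtain ⟨D, k, hD, h'⟩ := hg.exists_pos
  refine ⟨hf.1.mul hg.1, C * D, m + k, fun x => ?_⟩
  calc |f x * g x| = |f x| * |g x| := abs_mul _ _
    _ ≤ (C * (1 + x ⬝ᵥ x) ^ m) * (D * (1 + x ⬝ᵥ x) ^ k) :=
        mul_le_mul (h x) (h' x) (abs_nonneg _) ((abs_nonneg _).trans (h x))
    _ = _ := by rw [pow_add]; ring

theorem const_mul {f : E n → ℝ} (c : ℝ) (hf : Pg f) : Pg (fun x => c * f x) := (const c).mul hf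

theorem neg {f : E n → ℝ} (hf : Pg f) : Pg (fun x => -f x) := by
  simpa using hf.const_mul (-1)

theorem sub {f g : E n → ℝ} (hf : Pg f) (hg : Pg g) : Pg (fun x => f x - g x) := by
  simpa [sub_eq_add_neg] using hf.add hg.neg

theorem sum {ι : Type*} (s : Finset ι) {f : ι → E n → ℝ} (hf : ∀ a ∈ s, Pg (f a)) :
    Pg (fun x => ∑ a ∈ s, f a x) := by
  classical
  induction s using Finset.induction_on with
  | empty => simpa using const 0
  | insert a s ha ih =>
    simp only [Finset.sum_insert ha]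
    exact (hf a (Finset.mem_insert_self _ _)).add
      (ih fun b hb => hf b (Finset.mem_insert_of_mem hb))

theorem dot (e : E n) : Pg (fun x : E n => e ⬝ᵥ x) := by
  unfold dotProduct
  exact sum _ fun i _ => (coord i).const_mul (e i)

theorem quad (Q : Mt n) : Pg (fun x : E n => x ⬝ᵥ Q *ᵥ x) := by
  unfold dotProduct Matrix.mulVec
  exact sum _ fun i _ => (coord i).mul (dot (Q i))

end Pg

theorem Wt.pg_log {w : E n → ℝ} {m C : ℝ} (h : Wt w m C) : Pg (fun x => Real.log (w x)) :=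
  ⟨h.meas.log, C, 1, fun x => by simpa using h.log_le x⟩

/-- quadratic forms are bounded -/
theorem abs_quad_le (Q : Mt n) (x : E n) :
    |x ⬝ᵥ Q *ᵥ x| ≤ (∑ i, ∑ j, |Q i j|) * (x ⬝ᵥ x) := by
  have h1 : x ⬝ᵥ Q *ᵥ x = ∑ i, ∑ j, x i * (Q i j * x j) := by
    unfold dotProduct Matrix.mulVec dotProduct
    simp only [Finset.mul_sum]
  rw [h1, Finset.sum_mul]
  refine (Finset.abs_sum_le_sum_abs _ _).trans (Finset.sum_le_sum fun i _ => ?_)
  rw [Finset.sum_mul]
  refine (Finset.abs_sum_le_sum_abs _ _).trans (Finset.sum_le_sum fun j _ => ?_)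
  have h2 : |x i * (Q i j * x j)| = |Q i j| * |x i * x j| := by
    rw [← abs_mul]
    congr 1
    ring
  rw [h2]
  refine mul_le_mul_of_nonneg_left ?_ (abs_nonneg _)
  rw [abs_mul]
  have h3 := sq_le_dot x i
  have h4 := sq_le_dot x j
  nlinarith [sq_nonneg (|x i| - |x j|), sq_abs (x i), sq_abs (x j)]

theorem dot_le (c x : E n) {η : ℝ} (hη : 0 < η) : c ⬝ᵥ x ≤ η * (x ⬝ᵥ x) + (1 / (4 * η)) * (c ⬝ᵥ c) := by
  unfold dotProduct
  rw [Finset.mul_sum, Finset.mul_sum, ← Finset.sum_add_distrib]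
  refine Finset.sum_le_sum fun i _ => ?_
  have h : 0 ≤ (2 * η * x i - c i) ^ 2 / (4 * η) := by positivity
  have e : (2 * η * x i - c i) ^ 2 / (4 * η)
      = η * (x i * x i) + 1 / (4 * η) * (c i * c i) - c i * x i := by
    field_simp
    ring
  linarith

/-- Gaussian integrability -/
theorem integrable_gauss {b : ℝ} (hb : 0 < b) :
    Integrable (fun x : E n => Real.exp (-b * (x ⬝ᵥ x))) := by
  have h : (fun x : E n => Real.exp (-b * (x ⬝ᵥ x)))
      = fun x : E n => ∏ i, Real.exp (-b * x i ^ 2) := by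
    funext x
    rw [← Real.exp_sum]
    congr 1
    unfold dotProduct
    rw [Finset.mul_sum]
    exact Finset.sum_congr rfl fun i _ => by ring
  rw [h]
  exact Integrable.fintype_prod (f := fun _ (t : ℝ) => Real.exp (-b * t ^ 2))
    fun _ => integrable_exp_neg_mul_sq hb

theorem pow_le_exp {b : ℝ} (hb : 0 < b) (k : ℕ) :
    ∃ C : ℝ, 0 ≤ C ∧ ∀ r : ℝ, 0 ≤ r → (1 + r) ^ k ≤ C * Real.exp (b * r) := by
  refine ⟨(k.factorial : ℝ) / b ^ k * Real.exp b, by positivity, fun r hr => ?_⟩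
  have h := Real.pow_div_factorial_le_exp (b * (1 + r)) (by positivity) k
  rw [div_le_iff₀ (by positivity), mul_pow] at h
  have h2 : Real.exp (b * (1 + r)) = Real.exp b * Real.exp (b * r) := by
    rw [← Real.exp_add]
    congr 1
    ring
  rw [h2] at h
  have h3 : 0 < b ^ k := by positivity
  calc (1 + r) ^ k = (b ^ k * (1 + r) ^ k) / b ^ k := by field_simp
    _ ≤ (Real.exp b * Real.exp (b * r) * k.factorial) / b ^ k := by gcongr
    _ = _ := by ring

/-- a polynomially growing function times a Gaussian is integrable -/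
theorem integrable_pg_gauss {φ : E n → ℝ} (hφ : Pg φ) {b : ℝ} (hb : 0 < b) :
    Integrable (fun x => |φ x| * Real.exp (-b * (x ⬝ᵥ x))) := by
  obtain ⟨C, k, hC, h⟩ := hφ.exists_pos
  obtain ⟨D, hD, hk⟩ := pow_le_exp (half_pos hb) k
  have hdm : Measurable fun x : E n => x ⬝ᵥ x := by
    unfold dotProduct
    fun_prop
  refine ((integrable_gauss (n := n) (half_pos hb)).const_mul (C * D)).mono'
    (hφ.1.abs.mul (hdm.const_mul _).exp).aestronglyMeasurable (Eventually.of_forall fun x => ?_)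
  rw [Real.norm_eq_abs, abs_of_nonneg (by positivity)]
  calc |φ x| * Real.exp (-b * (x ⬝ᵥ x))
      ≤ (C * (D * Real.exp (b / 2 * (x ⬝ᵥ x)))) * Real.exp (-b * (x ⬝ᵥ x)) := by
        refine mul_le_mul_of_nonneg_right ((h x).trans ?_) (Real.exp_pos _).le
        exact mul_le_mul_of_nonneg_left (hk _ (dot_self_nonneg x)) hC
    _ = C * D * (Real.exp (b / 2 * (x ⬝ᵥ x)) * Real.exp (-b * (x ⬝ᵥ x))) := by ring
    _ = C * D * Real.exp (-(b / 2) * (x ⬝ᵥ x)) := by
        rw [← Real.exp_add]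
        congr 2
        ring

/-- the tilt -/
noncomputable def tl (B : Mt n) (c x : E n) : ℝ :=
  Real.exp (c ⬝ᵥ x - (1 / 2) * (x ⬝ᵥ B *ᵥ x))

/-- admissible `B` for the calculus -/
def Adm (m : ℝ) (B : Mt n) : Prop := ∀ x : E n, -(m / 4) * (x ⬝ᵥ x) ≤ x ⬝ᵥ B *ᵥ x

theorem adm_of_nonneg {m : ℝ} (hm : 0 < m) {B : Mt n} (h : ∀ x : E n, 0 ≤ x ⬝ᵥ B *ᵥ x) :
    Adm m B := fun x => by
  have := h x
  have h2 := dot_self_nonneg x
  nlinarith

theorem adm_of_posSemidef {m : ℝ} (hm : 0 < m) {B : Mt n} (h : B.PosSemidef) : Adm m B :=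
  adm_of_nonneg hm fun x => by simpa using h.dotProduct_mulVec_nonneg x

/-- tilted integrals -/
noncomputable def I (w : E n → ℝ) (B : Mt n) (c : E n) (φ : E n → ℝ) : ℝ :=
  ∫ x, φ x * (tl B c x * w x)

/-- the master bound -/
theorem tl_le {w : E n → ℝ} {m C : ℝ} (hw : Wt w m C) {B : Mt n} (hB : Adm m B) {c : E n} {R : ℝ}
    (hc : c ⬝ᵥ c ≤ R) (x : E n) :
    tl B c x * w x ≤ C * Real.exp (4 / m * R) * Real.exp (-(m / 4) * (x ⬝ᵥ x)) := by
  have hm := hw.m_pos
  have hC : 0 ≤ C * Real.exp (-(m / 2) * (x ⬝ᵥ x)) := (hw.pos x).le.trans (hw.le x)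
  have h1 := dot_le c x (η := m / 16) (by positivity)
  have h2 := hB x
  have h3 : (1 / (4 * (m / 16))) * (c ⬝ᵥ c) ≤ 4 / m * R := by
    have : 1 / (4 * (m / 16)) = 4 / m := by field_simp; norm_num
    rw [this]
    exact mul_le_mul_of_nonneg_left hc (by positivity)
  have h4 : tl B c x ≤ Real.exp (4 / m * R + (m / 4) * (x ⬝ᵥ x)) := by
    refine Real.exp_le_exp.2 ?_
    have h5 := dot_self_nonneg x
    nlinarith
  calc tl B c x * w x
      ≤ Real.exp (4 / m * R + (m / 4) * (x ⬝ᵥ x)) * (C * Real.exp (-(m / 2) * (x ⬝ᵥ x))) :=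
        mul_le_mul h4 (hw.le x) (hw.pos x).le (Real.exp_pos _).le
    _ = C * Real.exp (4 / m * R) * (Real.exp ((m / 4) * (x ⬝ᵥ x))
          * Real.exp (-(m / 2) * (x ⬝ᵥ x))) := by
        rw [Real.exp_add]
        ring
    _ = _ := by
        rw [← Real.exp_add]
        congr 2
        ring

theorem tl_pos (B : Mt n) (c x : E n) : 0 < tl B c x := Real.exp_pos _

theorem measurable_tl (B : Mt n) (c : E n) : Measurable (tl B c) := by
  unfold tl
  exact ((Pg.dot c).1.sub ((Pg.quad B).1.const_mul _)).exp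

theorem meas_integrand {w : E n → ℝ} {m C : ℝ} (hw : Wt w m C) (B : Mt n) (c : E n)
    {φ : E n → ℝ} (hφ : Pg φ) : AEStronglyMeasurable (fun x => φ x * (tl B c x * w x)) volume :=
  (hφ.1.mul ((measurable_tl B c).mul hw.meas)).aestronglyMeasurable

theorem integrand_le {w : E n → ℝ} {m C : ℝ} (hw : Wt w m C) {B : Mt n} (hB : Adm m B) {c : E n}
    {R : ℝ} (hc : c ⬝ᵥ c ≤ R) (φ : E n → ℝ) (x : E n) :
    ‖φ x * (tl B c x * w x)‖
      ≤ C * Real.exp (4 / m * R) * (|φ x| * Real.exp (-(m / 4) * (x ⬝ᵥ x))) := by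
  rw [Real.norm_eq_abs, abs_mul, abs_of_nonneg (mul_pos (tl_pos B c x) (hw.pos x)).le]
  calc |φ x| * (tl B c x * w x)
      ≤ |φ x| * (C * Real.exp (4 / m * R) * Real.exp (-(m / 4) * (x ⬝ᵥ x))) :=
        mul_le_mul_of_nonneg_left (tl_le hw hB hc x) (abs_nonneg _)
    _ = _ := by ring

theorem integrable_I {w : E n → ℝ} {m C : ℝ} (hw : Wt w m C) {B : Mt n} (hB : Adm m B) (c : E n)
    {φ : E n → ℝ} (hφ : Pg φ) : Integrable (fun x => φ x * (tl B c x * w x)) := by
  have hm := hw.m_pos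
  exact ((integrable_pg_gauss hφ (b := m / 4) (by positivity)).const_mul
    (C * Real.exp (4 / m * (c ⬝ᵥ c)))).mono' (meas_integrand hw B c hφ)
    (Eventually.of_forall fun x => integrand_le hw hB le_rfl φ x)

theorem dot_line (c e : E n) {t : ℝ} (ht : |t| ≤ 1) :
    (c + t • e) ⬝ᵥ (c + t • e) ≤ 2 * (c ⬝ᵥ c) + 2 * (e ⬝ᵥ e) := by
  unfold dotProduct
  rw [Finset.mul_sum, Finset.mul_sum, ← Finset.sum_add_distrib]
  refine Finset.sum_le_sum fun i _ => ?_
  simp only [Pi.add_apply, Pi.smul_apply, smul_eq_mul]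
  have h1 : t ^ 2 ≤ 1 := by
    have := abs_le.1 ht
    nlinarith
  nlinarith [sq_nonneg (c i - t * e i), mul_nonneg (sub_nonneg.2 h1) (sq_nonneg (e i))]

/-- the exponent of the direction `(Q, e)` -/
noncomputable def pt (Q : Mt n) (e x : E n) : ℝ := e ⬝ᵥ x - (1 / 2) * (x ⬝ᵥ Q *ᵥ x)

theorem Pg.pt (Q : Mt n) (e : E n) : Pg (Fr.pt Q e) := (Pg.dot e).sub ((Pg.quad Q).const_mul _)

theorem tl_line (B Q : Mt n) (c e x : E n) (t : ℝ) :
    tl (B + t • Q) (c + t • e) x = tl B c x * Real.exp (t * pt Q e x) := by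
  unfold tl pt
  rw [← Real.exp_add]
  congr 1
  rw [add_dotProduct, smul_dotProduct, Matrix.add_mulVec, Matrix.smul_mulVec,
    dotProduct_add, dotProduct_smul, smul_eq_mul, smul_eq_mul]
  ring

/-- differentiation under the integral sign -/
theorem hasDerivAt_I {w : E n → ℝ} {m C : ℝ} (hw : Wt w m C) {B : Mt n}
    (hB : ∀ x : E n, 0 ≤ x ⬝ᵥ B *ᵥ x) (Q : Mt n) (c e : E n) {φ : E n → ℝ} (hφ : Pg φ) :
    HasDerivAt (fun t : ℝ => I w (B + t • Q) (c + t • e) φ)
      (I w B c (fun x => φ x * pt Q e x)) 0 := by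
  have hm := hw.m_pos
  set q : ℝ := ∑ i, ∑ j, |Q i j| with hq
  have hq0 : 0 ≤ q := Finset.sum_nonneg fun i _ => Finset.sum_nonneg fun j _ => abs_nonneg _
  set δ : ℝ := min 1 (m / (4 * (q + 1))) with hδ
  have hδ0 : 0 < δ := lt_min one_pos (by positivity)
  set R : ℝ := 2 * (c ⬝ᵥ c) + 2 * (e ⬝ᵥ e) with hR
  have hadm : ∀ t : ℝ, |t| < δ → Adm m (B + t • Q) := by
    intro t ht x
    rw [Matrix.add_mulVec, Matrix.smul_mulVec, dotProduct_add, dotProduct_smul, smul_eq_mul]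
    have h1 := hB x
    have h2 := abs_quad_le Q x
    have h3 := dot_self_nonneg x
    have h4 : |t * (x ⬝ᵥ Q *ᵥ x)| ≤ m / 4 * (x ⬝ᵥ x) := by
      rw [abs_mul]
      have h5 : |t| * q ≤ m / 4 := by
        have h6 : |t| ≤ m / (4 * (q + 1)) := (ht.trans_le (min_le_right _ _)).le
        calc |t| * q ≤ m / (4 * (q + 1)) * (q + 1) :=
              mul_le_mul h6 (by linarith) hq0 (by positivity)
          _ = m / 4 := by field_simp
      calc |t| * |x ⬝ᵥ Q *ᵥ x| ≤ |t| * (q * (x ⬝ᵥ x)) :=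
            mul_le_mul_of_nonneg_left h2 (abs_nonneg _)
        _ = |t| * q * (x ⬝ᵥ x) := by ring
        _ ≤ m / 4 * (x ⬝ᵥ x) := mul_le_mul_of_nonneg_right h5 h3
    have h7 := (abs_le.1 h4).1
    linarith
  have hcR : ∀ t : ℝ, |t| < δ → (c + t • e) ⬝ᵥ (c + t • e) ≤ R := fun t ht =>
    dot_line c e (ht.trans_le (min_le_left _ _)).le
  have hball : ∀ t ∈ Metric.ball (0 : ℝ) δ, |t| < δ := fun t ht => by simpa using ht
  have hp := Pg.pt Q e
  have key := hasDerivAt_integral_of_dominated_loc_of_deriv_le (μ := volume)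
    (F := fun t x => φ x * (tl (B + t • Q) (c + t • e) x * w x))
    (F' := fun t x => φ x * pt Q e x * (tl (B + t • Q) (c + t • e) x * w x))
    (x₀ := (0 : ℝ)) (s := Metric.ball (0 : ℝ) δ)
    (bound := fun x => C * Real.exp (4 / m * R) *
      (|φ x * pt Q e x| * Real.exp (-(m / 4) * (x ⬝ᵥ x))))
    (Metric.ball_mem_nhds _ hδ0)
    (Eventually.of_forall fun t => meas_integrand hw _ _ hφ)
    ?_ (meas_integrand hw _ _ (hφ.mul hp))
    (Eventually.of_forall fun x t ht => ?_) ?_ (Eventually.of_forall fun x t ht => ?_)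
  · have h := key.2
    simp only [zero_smul, add_zero] at h
    exact h
  · simp only [zero_smul, add_zero]
    exact integrable_I hw (adm_of_nonneg hm hB) c hφ
  · exact integrand_le hw (hadm t (hball t ht)) (hcR t (hball t ht)) (fun x => φ x * pt Q e x) x
  · exact (integrable_pg_gauss (hφ.mul hp) (b := m / 4) (by positivity)).const_mul _
  · have h1 : HasDerivAt (fun t : ℝ => φ x * (tl B c x * Real.exp (t * pt Q e x) * w x))
        (φ x * (tl B c x * (Real.exp (t * pt Q e x) * pt Q e x) * w x)) t := by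
      have h2 : HasDerivAt (fun t : ℝ => Real.exp (t * pt Q e x))
          (Real.exp (t * pt Q e x) * pt Q e x) t := by
        have h3 : HasDerivAt (fun t : ℝ => t * pt Q e x) (pt Q e x) t := by
          simpa using (hasDerivAt_id t).mul_const (pt Q e x)
        exact h3.exp
      exact ((h2.const_mul _).mul_const _).const_mul _
    simp only [tl_line]
    have h4 : φ x * pt Q e x * (tl B c x * Real.exp (t * pt Q e x) * w x)
        = φ x * (tl B c x * (Real.exp (t * pt Q e x) * pt Q e x) * w x) := by ring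
    rw [h4]
    exact h1

/-- continuity in `(B, c)` -/
theorem continuousOn_I {w : E n → ℝ} {m C : ℝ} (hw : Wt w m C) {φ : E n → ℝ} (hφ : Pg φ) :
    ContinuousOn (fun z : Mt n × E n => I w z.1 z.2 φ) {z | Adm m z.1} := by
  intro z hz
  have hm := hw.m_pos
  haveI : FirstCountableTopology (Mt n) :=
    inferInstanceAs (FirstCountableTopology (Fin n → Fin n → ℝ))
  have hdc : Continuous fun z : Mt n × E n => z.2 ⬝ᵥ z.2 := by
    unfold dotProduct
    fun_prop
  have hev : ∀ᶠ y in 𝓝[{z : Mt n × E n | Adm m z.1}] z, y.2 ⬝ᵥ y.2 ≤ z.2 ⬝ᵥ z.2 + 1 := by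
    refine nhdsWithin_le_nhds ?_
    have := hdc.continuousAt (x := z)
    filter_upwards [this.eventually (gt_mem_nhds (lt_add_one (z.2 ⬝ᵥ z.2)))] with y hy
    exact hy.le
  refine continuousWithinAt_of_dominated
    (bound := fun x => C * Real.exp (4 / m * (z.2 ⬝ᵥ z.2 + 1)) *
      (|φ x| * Real.exp (-(m / 4) * (x ⬝ᵥ x))))
    (Eventually.of_forall fun y => meas_integrand hw y.1 y.2 hφ) ?_ ?_
    (Eventually.of_forall fun x => ?_)
  · filter_upwards [hev, self_mem_nhdsWithin] with y h1 h2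
    exact Eventually.of_forall fun x => integrand_le hw h2 h1 φ x
  · exact (integrable_pg_gauss hφ (b := m / 4) (by positivity)).const_mul _
  · refine Continuous.continuousWithinAt ?_
    refine continuous_const.mul (Continuous.mul ?_ continuous_const)
    unfold tl
    refine Real.continuous_exp.comp ?_
    have h1 : Continuous fun z : Mt n × E n => z.2 ⬝ᵥ x := by
      unfold dotProduct
      fun_prop
    have h2 : Continuous fun z : Mt n × E n => x ⬝ᵥ z.1 *ᵥ x := by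
      unfold dotProduct Matrix.mulVec dotProduct
      refine continuous_finsetSum _ fun i _ => continuous_const.mul ?_
      refine continuous_finsetSum _ fun j _ => Continuous.mul ?_ continuous_const
      exact (continuous_apply_apply i j).comp continuous_fst
    exact h1.sub (continuous_const.mul h2)

end Vale.Agent.P254.Fr
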