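import Vale.Agent.P254.Frame829.Mix
import Vale.Agent.P254.Frame829.Act

/-!
P254, frame block (b) (helper829): covariance and third cumulant of the tilts of a nice weight.
-/

open MeasureTheory Filter Topology Matrix

namespace Vale.Agent.P254.Fr

open R304 (IY EY)
open L (Mat Ten NN N3 frT)

variable {n : ℕ}

section linEY

variable {K : Set (E n)} {N : Mt n} {v : E n}

theorem int_pg (hK : IsCompact K) {φ : E n → ℝ} (hφ : Pg φ) :
    IntegrableOn (fun y => φ y * Real.exp (v ⬝ᵥ y - (1 / 2) * (y ⬝ᵥ N *ᵥ y))) K := by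
  obtain ⟨C, k, hC, h⟩ := hφ.exists_pos
  obtain ⟨D, hD0, hD⟩ := exists_bd hK
  have h1 : IntegrableOn (fun y => Real.exp (v ⬝ᵥ y - (1 / 2) * (y ⬝ᵥ N *ᵥ y))) K :=
    (R304.wcont N v).continuousOn.integrableOn_compact hK
  refine Integrable.mono' (h1.const_mul (C * (1 + D) ^ k)) ?_ ?_
  · exact (hφ.1.aestronglyMeasurable).mul (R304.wcont N v).aestronglyMeasurable
  · refine (ae_restrict_iff' hK.measurableSet).2 (Eventually.of_forall fun y hy => ?_)
    rw [norm_mul, Real.norm_eq_abs, Real.norm_eq_abs, abs_of_pos (Real.exp_pos _)]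
    refine mul_le_mul_of_nonneg_right ((h y).trans ?_) (Real.exp_pos _).le
    refine mul_le_mul_of_nonneg_left ?_ hC
    exact pow_le_pow_left₀ (by have := dot_self_nonneg y; linarith)
      (by have := hD y hy; linarith) k

theorem lin_EY (hK : IsCompact K) (N : Mt n) (v : E n) : Lin (EY K N v) where
  add p q hp hq := by
    unfold EY
    rw [← add_div]
    congr 1
    unfold IY
    rw [← integral_add (int_pg hK hp) (int_pg hK hq)]
    congr 1
    funext y
    ring
  cmul r p _ := R304.EY_const_mul p r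

theorem EY_nonneg (hK : IsCompact K) (hi : (interior K).Nonempty) {φ : E n → ℝ}
    (h : ∀ y, 0 ≤ φ y) : 0 ≤ EY K N v φ := by
  unfold EY
  refine div_nonneg ?_ (R304.IY_one_pos hK hi).le
  exact integral_nonneg fun y => mul_nonneg (h y) (Real.exp_pos _).le

theorem Lin.two {L : (E n → ℝ) → ℝ} (h : Lin L) (α β : Fin n → ℝ) {f : Fin n → E n → ℝ}
    (hf : ∀ a, Pg (f a)) :
    L (fun x => (∑ a, α a * f a x) * (∑ b, β b * f b x))
      = ∑ a, ∑ b, α a * β b * L (fun x => f a x * f b x) := by
  have hs : ∀ γ : Fin n → ℝ, Pg (fun x => ∑ a, γ a * f a x) := fun γ =>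
    Pg.sum _ fun a _ => (hf a).const_mul _
  have h1 := (h.comp (hs α)).sum Finset.univ β f fun a _ => hf a
  rw [h1, Finset.sum_comm]
  refine Finset.sum_congr rfl fun b _ => ?_
  have h2 := (h.comp (hf b)).sum Finset.univ α f fun a _ => hf a
  have h3 : L (fun x => (∑ a, α a * f a x) * f b x) = L (fun x => f b x * ∑ a, α a * f a x) := by
    congr 1
    funext x
    ring
  rw [h3, h2, Finset.mul_sum]
  refine Finset.sum_congr rfl fun a _ => ?_
  have h4 : L (fun x => f b x * f a x) = L (fun x => f a x * f b x) := by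
    congr 1
    funext x
    ring
  rw [h4]
  ring

theorem Lin.three {L : (E n → ℝ) → ℝ} (h : Lin L) (α β γ : Fin n → ℝ) {f : Fin n → E n → ℝ}
    (hf : ∀ a, Pg (f a)) :
    L (fun x => (∑ a, α a * f a x) * (∑ b, β b * f b x) * (∑ c, γ c * f c x))
      = ∑ a, ∑ b, ∑ c, α a * β b * γ c * L (fun x => f a x * f b x * f c x) := by
  have hs : ∀ γ : Fin n → ℝ, Pg (fun x => ∑ a, γ a * f a x) := fun γ =>
    Pg.sum _ fun a _ => (hf a).const_mul _
  have h1 := (h.comp ((hs α).mul (hs β))).sum Finset.univ γ f fun a _ => hf a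
  rw [h1]
  have h2 : ∀ c, L (fun x => (∑ a, α a * f a x) * (∑ b, β b * f b x) * f c x)
      = ∑ a, ∑ b, α a * β b * L (fun x => f a x * f b x * f c x) := by
    intro c
    have h3 := (h.comp (hf c)).two α β hf
    have h4 : L (fun x => (∑ a, α a * f a x) * (∑ b, β b * f b x) * f c x)
        = L (fun x => f c x * ((∑ a, α a * f a x) * (∑ b, β b * f b x))) := by
      congr 1
      funext x
      ring
    rw [h4, h3]
    refine Finset.sum_congr rfl fun a _ => Finset.sum_congr rfl fun b _ => ?_
    congr 2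
    funext x
    ring
  simp only [h2]
  have h5 : ∀ c, γ c * ∑ a, ∑ b, α a * β b * L (fun x => f a x * f b x * f c x)
      = ∑ a, ∑ b, α a * β b * γ c * L (fun x => f a x * f b x * f c x) := by
    intro c
    simp only [Finset.mul_sum]
    refine Finset.sum_congr rfl fun a _ => Finset.sum_congr rfl fun b _ => ?_
    ring
  simp only [h5]
  rw [Finset.sum_comm]
  refine Finset.sum_congr rfl fun a _ => ?_
  rw [Finset.sum_comm]

end linEY

section defs

variable (K : Set (E n)) (N : Mt n) (v : E n)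

/-- covariance of the mixing variable -/
noncomputable def SF : Mt n := Matrix.of fun i j =>
  EY K N v (fun y => (y i - EY K N v (fun z => z i)) * (y j - EY K N v (fun z => z j)))

/-- third cumulant of the mixing variable -/
noncomputable def tauF (i j k : Fin n) : ℝ :=
  EY K N v (fun y => (y i - EY K N v (fun z => z i)) * (y j - EY K N v (fun z => z j))
    * (y k - EY K N v (fun z => z k)))

end defs

section moments

variable {K : Set (E n)} {ε m : ℝ}

/-- conditional mean -/
noncomputable def uF (B : Mt n) (ε m : ℝ) (c : E n) (i : Fin n) (y : E n) : ℝ :=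
  (GF B (m + 1 / ε) *ᵥ (c + (1 / ε) • y)) i

/-- the linear map `G / ε` -/
noncomputable def WF (B : Mt n) (ε m : ℝ) : Mt n := (1 / ε) • GF B (m + 1 / ε)

theorem uF_eq (B : Mt n) (ε m : ℝ) (c : E n) (i : Fin n) (y : E n) :
    uF B ε m c i y = (GF B (m + 1 / ε) *ᵥ c) i + (WF B ε m i) ⬝ᵥ y := by
  unfold uF WF
  rw [Matrix.mulVec_add, Pi.add_apply, Matrix.mulVec_smul, Pi.smul_apply, smul_eq_mul]
  congr 1
  unfold mulVec dotProduct
  rw [Finset.mul_sum]
  refine Finset.sum_congr rfl fun a _ => ?_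
  rw [Matrix.smul_apply, smul_eq_mul]
  ring

theorem pg_uF (B : Mt n) (ε m : ℝ) (c : E n) (i : Fin n) : Pg (uF B ε m c i) := by
  have h : uF B ε m c i = fun y => (GF B (m + 1 / ε) *ᵥ c) i + (WF B ε m i) ⬝ᵥ y := by
    funext y
    exact uF_eq B ε m c i y
  rw [h]
  exact (Pg.const _).add (Pg.dot _)

theorem EY_uF (hK : IsCompact K) (hi : (interior K).Nonempty) (N : Mt n) (v : E n) (B : Mt n)
    (ε m : ℝ) (c : E n) (i : Fin n) :
    EY K N v (uF B ε m c i) = (GF B (m + 1 / ε) *ᵥ c) i
      + ∑ a, WF B ε m i a * EY K N v (fun z => z a) := by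
  have h : uF B ε m c i = fun y => (GF B (m + 1 / ε) *ᵥ c) i + (WF B ε m i) ⬝ᵥ y := by
    funext y
    exact uF_eq B ε m c i y
  rw [h, (lin_EY hK N v).add _ _ (Pg.const _) (Pg.dot _), R304.EY_const hK hi,
    (lin_EY hK N v).dot]

theorem uF_centre (hK : IsCompact K) (hi : (interior K).Nonempty) (N : Mt n) (v : E n) (B : Mt n)
    (ε m : ℝ) (c : E n) (i : Fin n) (y : E n) :
    uF B ε m c i y - EY K N v (uF B ε m c i)
      = ∑ a, WF B ε m i a * (y a - EY K N v (fun z => z a)) := by
  rw [EY_uF hK hi, uF_eq]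
  unfold dotProduct
  simp only [mul_sub, Finset.sum_sub_distrib]
  ring

theorem Ev_co (hK : IsCompact K) (hi : (interior K).Nonempty) (hε : 0 < ε) (hm : 0 < m)
    {B : Mt n} (hB : B.PosSemidef) (c : E n) (i : Fin n) :
    Ev (wK K ε m) B c (co i) = EY K (NF B ε m) (vF B ε m c) (uF B ε m c i) := by
  have hM : 0 < m + 1 / ε := add_pos hm (by positivity)
  rw [Ev_mix hK hi hε hm hB c (pg_co i)]
  congr 1
  funext y
  exact g_co hM hB _ i

theorem Ev_co2 (hK : IsCompact K) (hi : (interior K).Nonempty) (hε : 0 < ε) (hm : 0 < m)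
    {B : Mt n} (hB : B.PosSemidef) (c : E n) (i j : Fin n) :
    Ev (wK K ε m) B c (fun x => co i x * co j x) = GF B (m + 1 / ε) i j
      + EY K (NF B ε m) (vF B ε m c) (fun y => uF B ε m c i y * uF B ε m c j y) := by
  have hM : 0 < m + 1 / ε := add_pos hm (by positivity)
  rw [Ev_mix hK hi hε hm hB c ((pg_co i).mul (pg_co j))]
  have h1 : (fun y => Ev (gw (m + 1 / ε)) B (c + (1 / ε) • y) (fun x => co i x * co j x))
      = fun y => GF B (m + 1 / ε) i j + uF B ε m c i y * uF B ε m c j y := by
    funext y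
    exact g_2 hM hB _ i j
  rw [h1, (lin_EY hK _ _).add _ _ (Pg.const _) ((pg_uF _ _ _ _ _).mul (pg_uF _ _ _ _ _)),
    R304.EY_const hK hi]

theorem Ev_co3 (hK : IsCompact K) (hi : (interior K).Nonempty) (hε : 0 < ε) (hm : 0 < m)
    {B : Mt n} (hB : B.PosSemidef) (c : E n) (i j k : Fin n) :
    Ev (wK K ε m) B c (fun x => co i x * co j x * co k x)
      = GF B (m + 1 / ε) i k * EY K (NF B ε m) (vF B ε m c) (uF B ε m c j)
        + GF B (m + 1 / ε) j k * EY K (NF B ε m) (vF B ε m c) (uF B ε m c i)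
        + GF B (m + 1 / ε) i j * EY K (NF B ε m) (vF B ε m c) (uF B ε m c k)
        + EY K (NF B ε m) (vF B ε m c)
          (fun y => uF B ε m c i y * uF B ε m c j y * uF B ε m c k y) := by
  have hM : 0 < m + 1 / ε := add_pos hm (by positivity)
  have hl := lin_EY hK (NF B ε m) (vF B ε m c)
  rw [Ev_mix hK hi hε hm hB c (((pg_co i).mul (pg_co j)).mul (pg_co k))]
  have h1 : (fun y => Ev (gw (m + 1 / ε)) B (c + (1 / ε) • y)
      (fun x => co i x * co j x * co k x))
      = fun y => GF B (m + 1 / ε) i k * uF B ε m c j y + GF B (m + 1 / ε) j k * uF B ε m c i y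
        + GF B (m + 1 / ε) i j * uF B ε m c k y
        + uF B ε m c i y * uF B ε m c j y * uF B ε m c k y := by
    funext y
    exact g_3 hM hB _ i j k
  have p := fun i => pg_uF B ε m c i
  rw [h1, hl.add _ _ ((((p j).const_mul _).add ((p i).const_mul _)).add ((p k).const_mul _))
      (((p i).mul (p j)).mul (p k)),
    hl.add _ _ (((p j).const_mul _).add ((p i).const_mul _)) ((p k).const_mul _),
    hl.add _ _ ((p j).const_mul _) ((p i).const_mul _), hl.cmul _ _ (p j), hl.cmul _ _ (p i),
    hl.cmul _ _ (p k)]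

/-- the covariance matrix -/
theorem AF_eq (hK : IsCompact K) (hi : (interior K).Nonempty) (hε : 0 < ε) (hm : 0 < m)
    {B : Mt n} (hB : B.PosSemidef) (c : E n) :
    AF (wK K ε m) B c = GF B (m + 1 / ε)
      + WF B ε m * SF K (NF B ε m) (vF B ε m c) * (WF B ε m)ᵀ := by
  ext i j
  set L := EY K (NF B ε m) (vF B ε m c) with hL
  have hl : Lin L := lin_EY hK _ _
  have p := fun i => pg_uF B ε m c i
  have h1 : AF (wK K ε m) B c i j = GF B (m + 1 / ε) i j
      + L (fun y => (uF B ε m c i y - L (uF B ε m c i)) * (uF B ε m c j y - L (uF B ε m c j))) := by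
    rw [AF_apply]
    unfold c2
    rw [Ev_co2 hK hi hε hm hB, Ev_co hK hi hε hm hB, Ev_co hK hi hε hm hB]
    have h2 : (fun y => (uF B ε m c i y - L (uF B ε m c i)) * (uF B ε m c j y - L (uF B ε m c j)))
        = fun y => (uF B ε m c i y * uF B ε m c j y
          + (-(L (uF B ε m c j)) * uF B ε m c i y + -(L (uF B ε m c i)) * uF B ε m c j y))
          + L (uF B ε m c i) * L (uF B ε m c j) := by
      funext y
      ring
    have h3 : L (fun y => (uF B ε m c i y - L (uF B ε m c i))
        * (uF B ε m c j y - L (uF B ε m c j)))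
        = L (fun y => uF B ε m c i y * uF B ε m c j y) - L (uF B ε m c i) * L (uF B ε m c j) := by
      rw [h2, hl.add _ _ (((p i).mul (p j)).add (((p i).const_mul _).add ((p j).const_mul _)))
        (Pg.const _), hl.add _ _ ((p i).mul (p j)) (((p i).const_mul _).add ((p j).const_mul _)),
        hl.add _ _ ((p i).const_mul _) ((p j).const_mul _), hl.cmul _ _ (p i), hl.cmul _ _ (p j)]
      have h4 : L (fun _ => L (uF B ε m c i) * L (uF B ε m c j))
          = L (uF B ε m c i) * L (uF B ε m c j) := R304.EY_const hK hi _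
      rw [h4]
      ring
    rw [h3]
    ring
  rw [h1, Matrix.add_apply]
  congr 1
  have h5 : (fun y => (uF B ε m c i y - L (uF B ε m c i)) * (uF B ε m c j y - L (uF B ε m c j)))
      = fun y => (∑ a, WF B ε m i a * (y a - L (fun z => z a)))
        * (∑ a, WF B ε m j a * (y a - L (fun z => z a))) := by
    funext y
    rw [← uF_centre hK hi, ← uF_centre hK hi]
  rw [h5, hl.two _ _ (f := fun a y => y a - L (fun z => z a))
    fun a => (Pg.coord a).sub (Pg.const _)]
  rw [Matrix.mul_apply, Finset.sum_comm]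
  refine Finset.sum_congr rfl fun b _ => ?_
  rw [Matrix.mul_apply, Finset.sum_mul]
  refine Finset.sum_congr rfl fun a _ => ?_
  rw [Matrix.transpose_apply]
  show WF B ε m i a * WF B ε m j b * SF K (NF B ε m) (vF B ε m c) a b = _
  ring

/-- the third cumulant -/
theorem TF_eq (hK : IsCompact K) (hi : (interior K).Nonempty) (hε : 0 < ε) (hm : 0 < m)
    {B : Mt n} (hB : B.PosSemidef) (c : E n) :
    TF (wK K ε m) B c = frT (WF B ε m) (tauF K (NF B ε m) (vF B ε m c)) := by
  funext i j k
  set L := EY K (NF B ε m) (vF B ε m c) with hL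
  have hl : Lin L := lin_EY hK _ _
  have p := fun i => pg_uF B ε m c i
  have h1 : TF (wK K ε m) B c i j k = L (fun y => (uF B ε m c i y - L (uF B ε m c i))
      * (uF B ε m c j y - L (uF B ε m c j)) * (uF B ε m c k y - L (uF B ε m c k))) := by
    have h2 : (fun y => (uF B ε m c i y - L (uF B ε m c i))
        * (uF B ε m c j y - L (uF B ε m c j)) * (uF B ε m c k y - L (uF B ε m c k)))
        = fun y => ((uF B ε m c i y * uF B ε m c j y * uF B ε m c k y
          + (-(L (uF B ε m c k)) * (uF B ε m c i y * uF B ε m c j y)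
            + (-(L (uF B ε m c j)) * (uF B ε m c i y * uF B ε m c k y)
              + -(L (uF B ε m c i)) * (uF B ε m c j y * uF B ε m c k y))))
          + (L (uF B ε m c j) * L (uF B ε m c k) * uF B ε m c i y
            + (L (uF B ε m c i) * L (uF B ε m c k) * uF B ε m c j y
              + L (uF B ε m c i) * L (uF B ε m c j) * uF B ε m c k y)))
          + -(L (uF B ε m c i) * L (uF B ε m c j) * L (uF B ε m c k)) := by
      funext y
      ring
    have q3 := ((p i).mul (p j)).mul (p k)
    have q2 := fun (r : ℝ) i j => ((p i).mul (p j)).const_mul r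
    have q1 := fun (r : ℝ) i => (p i).const_mul r
    have h3 : L (fun y => (uF B ε m c i y - L (uF B ε m c i))
        * (uF B ε m c j y - L (uF B ε m c j)) * (uF B ε m c k y - L (uF B ε m c k)))
        = L (fun y => uF B ε m c i y * uF B ε m c j y * uF B ε m c k y)
          - L (fun y => uF B ε m c i y * uF B ε m c j y) * L (uF B ε m c k)
          - L (fun y => uF B ε m c i y * uF B ε m c k y) * L (uF B ε m c j)
          - L (fun y => uF B ε m c j y * uF B ε m c k y) * L (uF B ε m c i)
          + 2 * (L (uF B ε m c i) * L (uF B ε m c j) * L (uF B ε m c k)) := by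
      rw [h2, hl.add _ _ ((q3.add ((q2 _ i j).add ((q2 _ i k).add (q2 _ j k)))).add
          ((q1 _ i).add ((q1 _ j).add (q1 _ k)))) (Pg.const _),
        hl.add _ _ (q3.add ((q2 _ i j).add ((q2 _ i k).add (q2 _ j k))))
          ((q1 _ i).add ((q1 _ j).add (q1 _ k))),
        hl.add _ _ q3 ((q2 _ i j).add ((q2 _ i k).add (q2 _ j k))),
        hl.add _ _ (q2 _ i j) ((q2 _ i k).add (q2 _ j k)), hl.add _ _ (q2 _ i k) (q2 _ j k),
        hl.add _ _ (q1 _ i) ((q1 _ j).add (q1 _ k)), hl.add _ _ (q1 _ j) (q1 _ k),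
        hl.cmul _ _ ((p i).mul (p j)), hl.cmul _ _ ((p i).mul (p k)),
        hl.cmul _ _ ((p j).mul (p k)), hl.cmul _ _ (p i), hl.cmul _ _ (p j), hl.cmul _ _ (p k)]
      have h4 : L (fun _ => -(L (uF B ε m c i) * L (uF B ε m c j) * L (uF B ε m c k)))
          = -(L (uF B ε m c i) * L (uF B ε m c j) * L (uF B ε m c k)) := R304.EY_const hK hi _
      rw [h4]
      ring
    rw [h3]
    unfold TF c3 c2
    rw [Ev_co3 hK hi hε hm hB, Ev_co2 hK hi hε hm hB, Ev_co2 hK hi hε hm hB,
      Ev_co2 hK hi hε hm hB, Ev_co hK hi hε hm hB, Ev_co hK hi hε hm hB, Ev_co hK hi hε hm hB]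
    ring
  rw [h1]
  have h5 : (fun y => (uF B ε m c i y - L (uF B ε m c i))
      * (uF B ε m c j y - L (uF B ε m c j)) * (uF B ε m c k y - L (uF B ε m c k)))
      = fun y => (∑ a, WF B ε m i a * (y a - L (fun z => z a)))
        * (∑ a, WF B ε m j a * (y a - L (fun z => z a)))
        * (∑ a, WF B ε m k a * (y a - L (fun z => z a))) := by
    funext y
    rw [← uF_centre hK hi, ← uF_centre hK hi, ← uF_centre hK hi]
  rw [h5, hl.three _ _ _ (f := fun a y => y a - L (fun z => z a))
    fun a => (Pg.coord a).sub (Pg.const _)]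
  rfl

theorem SF_psd (hK : IsCompact K) (hi : (interior K).Nonempty) (N : Mt n) (v : E n) :
    (SF K N v).PosSemidef := by
  have hl : Lin (EY K N v) := lin_EY hK _ _
  refine Matrix.PosSemidef.of_dotProduct_mulVec_nonneg ?_ fun x => ?_
  · rw [Matrix.IsHermitian, Matrix.conjTranspose_eq_transpose_of_trivial]
    ext i j
    simp only [SF, Matrix.transpose_apply, Matrix.of_apply]
    congr 1
    funext y
    ring
  · rw [star_trivial]
    have h1 := hl.two x x (f := fun a y => y a - EY K N v (fun z => z a))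
      fun a => (Pg.coord a).sub (Pg.const _)
    have h2 : x ⬝ᵥ SF K N v *ᵥ x = ∑ a, ∑ b, x a * x b *
        EY K N v (fun y => (y a - EY K N v (fun z => z a)) * (y b - EY K N v (fun z => z b))) := by
      unfold dotProduct mulVec dotProduct
      refine Finset.sum_congr rfl fun a _ => ?_
      rw [Finset.mul_sum]
      refine Finset.sum_congr rfl fun b _ => ?_
      simp only [SF, Matrix.of_apply]
      ring
    rw [h2, ← h1]
    exact EY_nonneg hK hi fun y => mul_self_nonneg _

end moments

end Vale.Agent.P254.Fr
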