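import Vale.Agent.P254.Frame829.Nice

/-!
P254, frame block (b) (helper829): two-sided bounds of the covariance matrix, bounds and limits of
the third cumulant.
-/

open MeasureTheory Filter Topology Matrix

namespace Vale.Agent.P254.Fr

open R304 (IY EY)
open L (Mat Ten NN N3 frT)

variable {n : ℕ}

section alg

variable {B : Mt n} {M : ℝ}

theorem G_id (hM : 0 < M) (hB : B.PosSemidef) (b : ℝ) :
    GF B M - (b + M) • (GF B M * GF B M) = GF B M * (B - b • (1 : Mt n)) * GF B M := by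
  have h1 : B - b • (1 : Mt n) = HF B M - (b + M) • (1 : Mt n) := by
    unfold HF
    rw [add_smul]
    abel
  rw [h1, Matrix.mul_sub, Matrix.sub_mul, GF_mul_HF hM hB, Matrix.one_mul, Matrix.mul_smul,
    Matrix.mul_one, Matrix.smul_mul]

theorem psd_conj {X : Mt n} (hX : X.PosSemidef) {G : Mt n} (hG : G.IsSymm) :
    (G * X * G).PosSemidef := by
  have h := hX.mul_mul_conjTranspose_same G
  rwa [Matrix.conjTranspose_eq_transpose_of_trivial, hG] at h

theorem G_sub_psd (hM : 0 < M) (hB : B.PosSemidef) {b : ℝ} (hb : (B - b • (1 : Mt n)).PosSemidef) :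
    (GF B M - (b + M) • (GF B M * GF B M)).PosSemidef := by
  rw [G_id hM hB]
  exact psd_conj hb (symm_of_posDef (GF_posDef hM hB))

theorem one_sub_G (hM : 0 < M) (hB : B.PosSemidef) : (1 - M • GF B M).PosSemidef := by
  have hG := symm_of_posDef (GF_posDef hM hB)
  have h1 : (1 : Mt n) - M • GF B M = GF B M * (B * B + M • B) * GF B M := by
    have h2 : B * B + M • B = B * HF B M := by
      unfold HF
      rw [Matrix.mul_add, Matrix.mul_smul, Matrix.mul_one]
    have h3 : B = HF B M - M • (1 : Mt n) := by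
      unfold HF
      abel
    have h4 : GF B M * B = 1 - M • GF B M := by
      have h5 : GF B M * B = GF B M * (HF B M - M • (1 : Mt n)) := by rw [← h3]
      rw [h5, Matrix.mul_sub, GF_mul_HF hM hB, Matrix.mul_smul, Matrix.mul_one]
    rw [h2, ← Matrix.mul_assoc, Matrix.mul_assoc _ (HF B M), HF_mul_GF hM hB, Matrix.mul_one, h4]
  rw [h1]
  refine psd_conj (Matrix.PosSemidef.add ?_ (hB.smul hM.le)) hG
  have h5 := Matrix.posSemidef_conjTranspose_mul_self B
  rwa [hB.isHermitian.eq] at h5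

theorem G_entry_le (hM : 0 < M) (hB : B.PosSemidef) (i j : Fin n) : |GF B M i j| ≤ 1 / M := by
  refine R304.psd_entry_le (GF_posDef hM hB).posSemidef ?_ i j
  have h := (one_sub_G hM hB).smul (show 0 ≤ 1 / M by positivity)
  have e : (1 / M) • (1 - M • GF B M) = (1 / M) • (1 : Mt n) - GF B M := by
    rw [smul_sub, smul_smul, one_div_mul_cancel hM.ne', one_smul]
  rwa [e] at h

theorem inv_anti {A G : Mt n} (hA : A.PosDef) (hG : G.PosDef) (h : (A - G).PosSemidef) :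
    (G⁻¹ - A⁻¹).PosSemidef := by
  refine Matrix.PosSemidef.of_dotProduct_mulVec_nonneg (hG.inv.isHermitian.sub hA.inv.isHermitian)
    fun x => ?_
  rw [star_trivial]
  set y := A⁻¹ *ᵥ x with hy
  set g := G⁻¹ *ᵥ x with hg
  have hGs := symm_of_posDef hG
  have h1 : G *ᵥ g = x := by
    rw [hg, Matrix.mulVec_mulVec, Matrix.mul_nonsing_inv _
      ((Matrix.isUnit_iff_isUnit_det _).1 hG.isUnit), Matrix.one_mulVec]
  have h2 : A *ᵥ y = x := by
    rw [hy, Matrix.mulVec_mulVec, Matrix.mul_nonsing_inv _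
      ((Matrix.isUnit_iff_isUnit_det _).1 hA.isUnit), Matrix.one_mulVec]
  have h3 := nonneg_of_psd hG.posSemidef (g + (-1 : ℝ) • y)
  rw [quad_line hGs, h1] at h3
  have h4 := nonneg_of_psd h y
  rw [Matrix.sub_mulVec, dotProduct_sub, h2] at h4
  rw [Matrix.sub_mulVec, dotProduct_sub, ← hy, ← hg, dotProduct_comm x g, dotProduct_comm x y]
  linarith

end alg

section structural

variable {K : Set (E n)} {ε m : ℝ}

theorem WF_symm (hε : 0 < ε) (hm : 0 < m) {B : Mt n} (hB : B.PosSemidef) :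
    (WF B ε m).IsSymm := by
  have hG := symm_of_posDef (GF_posDef (M := m + 1 / ε) (by positivity) hB)
  unfold WF
  rw [Matrix.IsSymm, Matrix.transpose_smul, hG]

theorem A_sub_G (hK : IsCompact K) (hi : (interior K).Nonempty) (hε : 0 < ε) (hm : 0 < m)
    {B : Mt n} (hB : B.PosSemidef) (c : E n) :
    (AF (wK K ε m) B c - GF B (m + 1 / ε)).PosSemidef := by
  rw [AF_eq hK hi hε hm hB, add_sub_cancel_left, WF_symm hε hm hB]
  exact psd_conj (SF_psd hK hi _ _) (WF_symm hε hm hB)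

theorem posA (hK : IsCompact K) (hi : (interior K).Nonempty) (hε : 0 < ε) (hm : 0 < m)
    (B : Mt n) (hB : B.PosSemidef) (c : E n) : (AF (wK K ε m) B c).PosDef := by
  have h := (GF_posDef (M := m + 1 / ε) (by positivity) hB).add_posSemidef
    (A_sub_G hK hi hε hm hB c)
  rwa [add_sub_cancel] at h

theorem lo (hK : IsCompact K) (hi : (interior K).Nonempty) (hε : 0 < ε) (hm : 0 < m)
    (B : Mt n) (hB : B.PosSemidef) (c : E n) :
    ((B + (m + 1 / ε) • (1 : Mt n)) - (AF (wK K ε m) B c)⁻¹).PosSemidef := by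
  have hM : 0 < m + 1 / ε := by positivity
  have h := inv_anti (posA hK hi hε hm B hB c) (GF_posDef hM hB) (A_sub_G hK hi hε hm hB c)
  have e : (GF B (m + 1 / ε))⁻¹ = B + (m + 1 / ε) • (1 : Mt n) :=
    Matrix.nonsing_inv_nonsing_inv _ ((Matrix.isUnit_iff_isUnit_det _).1 (HF_posDef hM hB).isUnit)
  rwa [e] at h

/-- trace estimate for the pulled back test matrix -/
theorem trace_W (hK : IsCompact K) (hi : (interior K).Nonempty) (hε : 0 < ε) (hm : 0 < m)
    {B : Mt n} (hB : B.PosSemidef) {b : ℝ} (hb : 0 ≤ b) (hbB : (B - b • (1 : Mt n)).PosSemidef)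
    (c : E n) {P : Mt n} (hP : P.PosSemidef) :
    ((WF B ε m)ᵀ * P * WF B ε m).trace
      ≤ (1 / ε ^ 2) * (1 / (b + (m + 1 / ε))) * (AF (wK K ε m) B c * P).trace := by
  have hM : 0 < m + 1 / ε := by positivity
  have h1 := trace_mul_nonneg (G_sub_psd hM hB hbB) hP
  have h2 := trace_mul_nonneg (A_sub_G hK hi hε hm hB c) hP
  rw [Matrix.sub_mul, Matrix.trace_sub, Matrix.smul_mul, Matrix.trace_smul, smul_eq_mul] at h1
  rw [Matrix.sub_mul, Matrix.trace_sub] at h2
  have h3 : ((WF B ε m)ᵀ * P * WF B ε m).trace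
      = (1 / ε ^ 2) * (GF B (m + 1 / ε) * GF B (m + 1 / ε) * P).trace := by
    rw [WF_symm hε hm hB, Matrix.trace_mul_comm, ← Matrix.mul_assoc]
    unfold WF
    rw [Matrix.smul_mul, Matrix.mul_smul, Matrix.smul_mul, Matrix.smul_mul, Matrix.trace_smul,
      Matrix.trace_smul, smul_eq_mul, smul_eq_mul]
    ring
  rw [h3]
  have h4 : (GF B (m + 1 / ε) * GF B (m + 1 / ε) * P).trace
      ≤ 1 / (b + (m + 1 / ε)) * (AF (wK K ε m) B c * P).trace := by
    rw [one_div_mul_eq_div, le_div_iff₀ (by positivity)]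
    linarith
  calc (1 / ε ^ 2) * (GF B (m + 1 / ε) * GF B (m + 1 / ε) * P).trace
      ≤ (1 / ε ^ 2) * (1 / (b + (m + 1 / ε)) * (AF (wK K ε m) B c * P).trace) :=
        mul_le_mul_of_nonneg_left h4 (by positivity)
    _ = _ := by ring

/-- the third cumulant of the mixing variable is bounded -/
theorem exists_tau_bd (hK : IsCompact K) (hi : (interior K).Nonempty) :
    ∃ b : ℝ, 0 ≤ b ∧ ∀ (N : Mt n) (v : E n) i j k, |tauF K N v i j k| ≤ b := by
  obtain ⟨D, hDpos, hD⟩ := hK.isBounded.exists_pos_norm_le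
  refine ⟨(2 * D) ^ 3, by positivity, fun N v i j k => ?_⟩
  have hcoord : ∀ i, Continuous fun y : Fin n → ℝ => y i := fun i => continuous_apply i
  have haD : ∀ i, |EY K N v (fun z => z i)| ≤ D := by
    intro i
    refine (R304.abs_EY_le hK hi _).trans ?_
    refine (R304.EY_mono hK hi (hcoord i).abs continuous_const (ψ := fun _ => D)
      fun y hy => ?_).trans (R304.EY_const hK hi D).le
    exact (norm_le_pi_norm y i).trans (hD y hy)
  have hdiff : ∀ i, ∀ y ∈ K, |y i - EY K N v (fun z => z i)| ≤ 2 * D := by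
    intro i y hy
    have h1 : |y i| ≤ D := (norm_le_pi_norm y i).trans (hD y hy)
    calc |y i - EY K N v (fun z => z i)| ≤ |y i| + |EY K N v (fun z => z i)| := abs_sub _ _
      _ ≤ D + D := add_le_add h1 (haD i)
      _ = 2 * D := by ring
  unfold tauF
  refine (R304.abs_EY_le hK hi _).trans ?_
  refine (R304.EY_mono hK hi (ψ := fun _ => (2 * D) ^ 3) (by fun_prop) continuous_const
    fun y hy => ?_).trans (R304.EY_const hK hi _).le
  rw [abs_mul, abs_mul]
  have h3 := hdiff i y hy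
  have h4 := hdiff j y hy
  have h5 := hdiff k y hy
  calc |y i - EY K N v (fun z => z i)| * |y j - EY K N v (fun z => z j)|
        * |y k - EY K N v (fun z => z k)| ≤ (2 * D) * (2 * D) * (2 * D) := by gcongr
    _ = (2 * D) ^ 3 := by ring

/-- bound of `NN P T T` from a bound of the third cumulant of the mixing variable -/
theorem NN_T_le (hK : IsCompact K) (hi : (interior K).Nonempty) (hε : 0 < ε) (hm : 0 < m)
    {B : Mt n} (hB : B.PosSemidef) {b : ℝ} (hb : 0 ≤ b) (hbB : (B - b • (1 : Mt n)).PosSemidef)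
    (c : E n) {P : Mt n} (hP : P.PosSemidef) {δ : ℝ} (hδ : 0 ≤ δ)
    (hT : ∀ i j k, |tauF K (NF B ε m) (vF B ε m c) i j k| ≤ δ) :
    NN P (TF (wK K ε m) B c) (TF (wK K ε m) B c)
      ≤ (n : ℝ) ^ 6 * δ ^ 2 / ε ^ 6 / (b + (m + 1 / ε)) ^ 3
        * (AF (wK K ε m) B c * P).trace ^ 3 := by
  have hM : 0 < m + 1 / ε := by positivity
  rw [TF_eq hK hi hε hm hB, NN_frT]
  have hQ : ((WF B ε m)ᵀ * P * WF B ε m).PosSemidef := by
    have h := hP.mul_mul_conjTranspose_same (WF B ε m)ᵀ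
    rwa [Matrix.conjTranspose_eq_transpose_of_trivial, Matrix.transpose_transpose] at h
  refine (NN_le hQ hδ hT).trans ?_
  have h1 := trace_W hK hi hε hm hB hb hbB c hP
  have h2 : 0 ≤ ((WF B ε m)ᵀ * P * WF B ε m).trace := hQ.trace_nonneg
  calc (n : ℝ) ^ 6 * δ ^ 2 * ((WF B ε m)ᵀ * P * WF B ε m).trace ^ 3
      ≤ (n : ℝ) ^ 6 * δ ^ 2 * ((1 / ε ^ 2) * (1 / (b + (m + 1 / ε)))
          * (AF (wK K ε m) B c * P).trace) ^ 3 := by gcongr
    _ = _ := by
      field_simp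

theorem bT (hK : IsCompact K) (hi : (interior K).Nonempty) (hε : 0 < ε) (hm : 0 < m) :
    ∃ CT : ℝ, 0 ≤ CT ∧ ∀ B : Mt n, B.PosSemidef → ∀ b : ℝ, 0 ≤ b →
      (B - b • (1 : Mt n)).PosSemidef → ∀ c, ∀ P : Mt n, P.PosSemidef →
      NN P (TF (wK K ε m) B c) (TF (wK K ε m) B c)
        ≤ CT / (b + (m + 1 / ε)) ^ 3 * (AF (wK K ε m) B c * P).trace ^ 3 := by
  obtain ⟨δ, hδ, h⟩ := exists_tau_bd hK hi
  exact ⟨(n : ℝ) ^ 6 * δ ^ 2 / ε ^ 6, by positivity, fun B hB b hb hbB c P hP =>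
    NN_T_le hK hi hε hm hB hb hbB c hP hδ fun i j k => h _ _ i j k⟩

/-- `N` is bounded -/
theorem NF_entry_le (hε : 0 < ε) (hm : 0 < m) {B : Mt n} (hB : B.PosSemidef) (i j : Fin n) :
    |NF B ε m i j| ≤ 1 / ε := by
  have hM : 0 < m + 1 / ε := by positivity
  refine R304.psd_entry_le ?_ ?_ i j
  · have h1 := (one_sub_G hM hB).smul (show 0 ≤ 1 / (ε ^ 2 * (m + 1 / ε)) by positivity)
    have h2 : (0 : ℝ) ≤ 1 / ε - 1 / (ε ^ 2 * (m + 1 / ε)) := by
      have : 1 / ε - 1 / (ε ^ 2 * (m + 1 / ε)) = m / (ε * (m + 1 / ε)) := by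
        field_simp
        ring
      rw [this]
      positivity
    have h3 := h1.add ((Matrix.PosSemidef.one (n := Fin n) (R := ℝ)).smul h2)
    have e : (1 / (ε ^ 2 * (m + 1 / ε))) • (1 - (m + 1 / ε) • GF B (m + 1 / ε))
        + (1 / ε - 1 / (ε ^ 2 * (m + 1 / ε))) • (1 : Mt n) = NF B ε m := by
      unfold NF
      rw [smul_sub, smul_smul, sub_smul]
      have e2 : 1 / (ε ^ 2 * (m + 1 / ε)) * (m + 1 / ε) = 1 / ε ^ 2 := by
        field_simp
      rw [e2]
      abel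
    rwa [e] at h3
  · have h1 := (GF_posDef hM hB).posSemidef.smul (show 0 ≤ 1 / ε ^ 2 by positivity)
    have e : (1 / ε) • (1 : Mt n) - NF B ε m = (1 / ε ^ 2) • GF B (m + 1 / ε) := by
      unfold NF
      abel
    rw [e]
    exact h1

/-- the tilt vector of the mixing variable tends to infinity -/
theorem vF_large (hε : 0 < ε) (hm : 0 < m) (b R : ℝ) : ∃ ρ : ℝ, ∀ B : Mt n, B.PosSemidef →
    (b • (1 : Mt n) - B).PosSemidef → ∀ c : E n, ρ ≤ ‖c‖ → R ≤ ‖vF B ε m c‖ := by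
  have hM : 0 < m + 1 / ε := by positivity
  refine ⟨ε * ((n + 1) * (|b| + (m + 1 / ε))) * (|R| + 1), fun B hB hbB c hc => ?_⟩
  have h1 : c = ε • (HF B (m + 1 / ε) *ᵥ vF B ε m c) := by
    unfold vF
    rw [Matrix.mulVec_smul, Matrix.mulVec_mulVec, HF_mul_GF hM hB, Matrix.one_mulVec, smul_smul,
      mul_one_div_cancel hε.ne', one_smul]
  have h2 : ∀ i j, |HF B (m + 1 / ε) i j| ≤ |b| + (m + 1 / ε) := by
    refine R304.psd_entry_le (HF_posDef hM hB).posSemidef ?_
    have e : (|b| + (m + 1 / ε)) • (1 : Mt n) - HF B (m + 1 / ε)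
        = (|b| - b) • (1 : Mt n) + (b • (1 : Mt n) - B) := by
      unfold HF
      rw [add_smul, sub_smul]
      abel
    rw [e]
    exact (Matrix.PosSemidef.one.smul (sub_nonneg.2 (le_abs_self b))).add hbB
  have h3 : ‖HF B (m + 1 / ε) *ᵥ vF B ε m c‖
      ≤ (n + 1) * (|b| + (m + 1 / ε)) * ‖vF B ε m c‖ := by
    rw [pi_norm_le_iff_of_nonneg (by positivity)]
    intro i
    rw [Real.norm_eq_abs]
    simp only [mulVec, dotProduct]
    calc |∑ j, HF B (m + 1 / ε) i j * vF B ε m c j|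
        ≤ ∑ j, |HF B (m + 1 / ε) i j * vF B ε m c j| := Finset.abs_sum_le_sum_abs _ _
      _ ≤ ∑ _j : Fin n, (|b| + (m + 1 / ε)) * ‖vF B ε m c‖ := by
          refine Finset.sum_le_sum fun j _ => ?_
          rw [abs_mul]
          exact mul_le_mul (h2 i j) (norm_le_pi_norm (vF B ε m c) j) (abs_nonneg _) (by positivity)
      _ = n * (|b| + (m + 1 / ε)) * ‖vF B ε m c‖ := by simp [mul_assoc]
      _ ≤ (n + 1) * (|b| + (m + 1 / ε)) * ‖vF B ε m c‖ := by
          have : (n : ℝ) ≤ n + 1 := by linarith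
          gcongr
  have h4 : ‖c‖ ≤ ε * ((n + 1) * (|b| + (m + 1 / ε)) * ‖vF B ε m c‖) := by
    calc ‖c‖ = ε * ‖HF B (m + 1 / ε) *ᵥ vF B ε m c‖ := by
          conv_lhs => rw [h1]
          rw [norm_smul, Real.norm_eq_abs, abs_of_pos hε]
      _ ≤ _ := by gcongr
  have h5 : ε * ((n + 1) * (|b| + (m + 1 / ε))) * (|R| + 1)
      ≤ ε * ((n + 1) * (|b| + (m + 1 / ε))) * ‖vF B ε m c‖ := by
    calc _ ≤ ‖c‖ := hc
      _ ≤ _ := h4
      _ = _ := by ring
  have h6 : 0 < ε * ((n + 1) * (|b| + (m + 1 / ε))) := by positivity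
  have h7 := le_of_mul_le_mul_left h5 h6
  have h8 := le_abs_self R
  linarith

theorem vT (hK : IsCompact K) (hs : StrictConvex ℝ K) (hi : (interior K).Nonempty) (hε : 0 < ε)
    (hm : 0 < m) (b η : ℝ) (hη : 0 < η) : ∃ ρ : ℝ, ∀ B : Mt n, B.PosSemidef →
    (b • (1 : Mt n) - B).PosSemidef → ∀ c : E n, ρ ≤ ‖c‖ → ∀ P : Mt n, P.PosSemidef →
      NN P (TF (wK K ε m) B c) (TF (wK K ε m) B c) ≤ η * (AF (wK K ε m) B c * P).trace ^ 3 := by
  have hM : 0 < m + 1 / ε := by positivity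
  set δ : ℝ := Real.sqrt (η * (m + 1 / ε) ^ 3 * ε ^ 6 / (n ^ 6 + 1)) with hδ
  have hδ0 : 0 < δ := Real.sqrt_pos.2 (by positivity)
  have hδ2 : δ ^ 2 = η * (m + 1 / ε) ^ 3 * ε ^ 6 / (n ^ 6 + 1) := Real.sq_sqrt (by positivity)
  obtain ⟨R, hR⟩ := R304.moments_small hK hs hi (1 / ε) hδ0
  obtain ⟨ρ, hρ⟩ := vF_large (n := n) hε hm b R
  refine ⟨ρ, fun B hB hbB c hc P hP => ?_⟩
  have h1 := (hR (NF B ε m) (NF_entry_le hε hm hB) (vF B ε m c) (hρ B hB hbB c hc)).2
  have hB0 : (B - (0 : ℝ) • (1 : Mt n)).PosSemidef := by simpa using hB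
  refine (NN_T_le hK hi hε hm hB le_rfl hB0 c hP hδ0.le h1).trans ?_
  have h2 : 0 ≤ (AF (wK K ε m) B c * P).trace :=
    trace_mul_nonneg (posA hK hi hε hm B hB c).posSemidef hP
  refine mul_le_mul_of_nonneg_right ?_ (by positivity)
  rw [hδ2, zero_add]
  have h3 : (n : ℝ) ^ 6 * (η * (m + 1 / ε) ^ 3 * ε ^ 6 / (n ^ 6 + 1)) / ε ^ 6 / (m + 1 / ε) ^ 3
      = η * ((n : ℝ) ^ 6 / (n ^ 6 + 1)) := by
    have : (0 : ℝ) < (n : ℝ) ^ 6 + 1 := by positivity
    have hM' : m + 1 / ε ≠ 0 := hM.ne'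
    generalize m + 1 / ε = M at hM'
    field_simp
  rw [h3]
  have h4 : (n : ℝ) ^ 6 / (n ^ 6 + 1) ≤ 1 := by
    rw [div_le_one (by positivity)]
    linarith
  calc η * ((n : ℝ) ^ 6 / (n ^ 6 + 1)) ≤ η * 1 := mul_le_mul_of_nonneg_left h4 hη.le
    _ = η := mul_one _

theorem det_small (η : ℝ) (hη : 0 < η) : ∃ δ : ℝ, 0 < δ ∧ ∀ X : Mt n, (∀ i j, |X i j| ≤ δ) →
    (1 + X).det < Real.exp η := by
  have hc : Continuous fun F : Fin n → Fin n → ℝ => ((1 : Mt n) + Matrix.of F).det := by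
    refine Continuous.matrix_det ?_
    refine continuous_const.add ?_
    exact continuous_id
  have h1 : ((1 : Mt n) + Matrix.of (0 : Fin n → Fin n → ℝ)).det < Real.exp η := by
    have : (1 : Mt n) + Matrix.of (0 : Fin n → Fin n → ℝ) = 1 := by
      ext i j
      simp
    rw [this, Matrix.det_one]
    exact Real.one_lt_exp_iff.2 hη
  have h2 := hc.continuousAt.eventually (gt_mem_nhds h1)
  obtain ⟨δ, hδ, h3⟩ := Metric.eventually_nhds_iff.1 h2
  refine ⟨δ / 2, by positivity, fun X hX => ?_⟩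
  refine h3 (y := fun i j => X i j) ?_
  have h4 : dist (fun i j => X i j) (0 : Fin n → Fin n → ℝ) ≤ δ / 2 := by
    rw [dist_zero_right, pi_norm_le_iff_of_nonneg (by positivity)]
    intro i
    rw [pi_norm_le_iff_of_nonneg (by positivity)]
    intro j
    exact hX i j
  linarith

theorem vA (hK : IsCompact K) (hs : StrictConvex ℝ K) (hi : (interior K).Nonempty) (hε : 0 < ε)
    (hm : 0 < m) (b η : ℝ) (hη : 0 < η) : ∃ ρ : ℝ, ∀ B : Mt n, B.PosSemidef →
    (b • (1 : Mt n) - B).PosSemidef → ∀ c : E n, ρ ≤ ‖c‖ →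
      Real.log (AF (wK K ε m) B c).det ≤ - Real.log (B + (m + 1 / ε) • (1 : Mt n)).det + η := by
  have hM : 0 < m + 1 / ε := by positivity
  obtain ⟨δ, hδ, hdet⟩ := det_small (n := n) η hη
  set δ' : ℝ := δ * (ε ^ 2 * (m + 1 / ε)) / (n + 1) with hδ'
  have hδ'0 : 0 < δ' := by positivity
  obtain ⟨R, hR⟩ := R304.moments_small hK hs hi (1 / ε) hδ'0
  obtain ⟨ρ, hρ⟩ := vF_large (n := n) hε hm b R
  refine ⟨ρ, fun B hB hbB c hc => ?_⟩
  have h1 := (hR (NF B ε m) (NF_entry_le hε hm hB) (vF B ε m c) (hρ B hB hbB c hc)).1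
  set G := GF B (m + 1 / ε) with hG
  set S := SF K (NF B ε m) (vF B ε m c) with hS
  set X : Mt n := (1 / ε ^ 2) • (S * G) with hX
  have hA : AF (wK K ε m) B c = G * (1 + X) := by
    rw [AF_eq hK hi hε hm hB, WF_symm hε hm hB, hX, Matrix.mul_add, Matrix.mul_one, ← hG, ← hS]
    congr 1
    unfold WF
    rw [Matrix.smul_mul, Matrix.mul_smul, Matrix.smul_mul, Matrix.mul_smul, smul_smul,
      Matrix.mul_assoc]
    congr 1
    field_simp
  have hXle : ∀ i j, |X i j| ≤ δ := by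
    intro i j
    rw [hX, Matrix.smul_apply, smul_eq_mul, abs_mul, abs_of_pos (by positivity : 0 < 1 / ε ^ 2),
      Matrix.mul_apply]
    have h2 : |∑ k, S i k * G k j| ≤ n * (δ' * (1 / (m + 1 / ε))) := by
      calc |∑ k, S i k * G k j| ≤ ∑ k, |S i k * G k j| := Finset.abs_sum_le_sum_abs _ _
        _ ≤ ∑ _k : Fin n, δ' * (1 / (m + 1 / ε)) := by
            refine Finset.sum_le_sum fun k _ => ?_
            rw [abs_mul]
            exact mul_le_mul (h1 i k) (G_entry_le hM hB k j) (abs_nonneg _) hδ'0.le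
        _ = _ := by simp
    calc 1 / ε ^ 2 * |∑ k, S i k * G k j| ≤ 1 / ε ^ 2 * (n * (δ' * (1 / (m + 1 / ε)))) := by gcongr
      _ = δ * (n / (n + 1)) := by
          rw [hδ']
          have hM' : m + 1 / ε ≠ 0 := hM.ne'
          generalize m + 1 / ε = M at hM'
          field_simp
      _ ≤ δ * 1 := by
          refine mul_le_mul_of_nonneg_left ?_ hδ.le
          rw [div_le_one (by positivity)]
          linarith
      _ = δ := mul_one _
  have h3 := hdet X hXle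
  have hGd : 0 < G.det := (GF_posDef hM hB).det_pos
  have hAd : 0 < (AF (wK K ε m) B c).det := (posA hK hi hε hm B hB c).det_pos
  have h4 : (AF (wK K ε m) B c).det = G.det * (1 + X).det := by
    rw [hA, Matrix.det_mul]
  have hXd : 0 < (1 + X).det := by
    rw [h4] at hAd
    exact (mul_pos_iff_of_pos_left hGd).1 hAd
  have h5 : Real.log G.det = - Real.log (B + (m + 1 / ε) • (1 : Mt n)).det := by
    have e : G.det = ((B + (m + 1 / ε) • (1 : Mt n)).det)⁻¹ := by
      rw [hG]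
      unfold GF HF
      rw [Matrix.det_nonsing_inv, Ring.inverse_eq_inv']
    rw [e, Real.log_inv]
  rw [h4, Real.log_mul hGd.ne' hXd.ne', h5]
  have h6 : Real.log (1 + X).det < η := by
    have := Real.log_lt_log hXd h3
    rwa [Real.log_exp] at this
  linarith

end structural

end Vale.Agent.P254.Fr
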